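import Vale.Agent.P318.H17.TStep3
import Vale.Agent.P318.H460.Code4
import Vale.Agent.P318.H308.Main6

/-!
# P318: the code, and the lower bound for the integrality gap
-/

set_option autoImplicit false

namespace Vale.Agent.P318.H17

/-- The code. -/
theorem spec_code4 : H308.SpecCODE4 :=
  H460.spec_code4_of (A2 := 6) (B2 := 12) (hc := 4) (by norm_num) fun a w J D h1 h2 =>
    tstep h1 h2 (by
      have h3 : 2 ^ 4 ≤ 2 ^ (2 * J + 4) := Nat.pow_le_pow_right (by norm_num) (by omega)
      omega)

/-- **The integrality gap is at least a power of `log n`.** -/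
theorem gap_power : ∃ c : ℝ, 0 < c ∧ ∃ n₀ : ℕ, ∀ n ≥ n₀, Real.log n ^ c ≤ H308.gap n :=
  H308.main_gap6_of_code spec_code4

end Vale.Agent.P318.H17
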