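import Mathlib

/-!
# P318, extension property for tensors

`idxT G x`: the linear map `G : F_2^J → F_2^I` applied to the index of `x : J → V`.
`extT`: if `idxT (G c) (q b)` is `E b` of the entries of `p c` for most pairs `b, c`, then
`p c = idxT (G c) u` for most `c`.
-/

set_option autoImplicit false

namespace Vale.Agent.P318.H17

open Finset
open scoped BigOperators Classical

/-- Compression of the index. -/
def idxT {J I V : Type} [Fintype J] [DecidableEq J] [AddCommGroup V] [Module (ZMod 2) V]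
    (G : (J → ZMod 2) →ₗ[ZMod 2] (I → ZMod 2)) (x : J → V) : I → V :=
  fun i => ∑ j, G (Pi.single j 1) i • x j

section idxT

variable {J I V V' : Type} [Fintype J] [DecidableEq J] [AddCommGroup V] [Module (ZMod 2) V]
  [AddCommGroup V'] [Module (ZMod 2) V']

theorem idxT_map (G : (J → ZMod 2) →ₗ[ZMod 2] (I → ZMod 2)) (f : V →ₗ[ZMod 2] V') (x : J → V)
    (i : I) : f (idxT G x i) = idxT G (fun j => f (x j)) i := by
  unfold idxT
  rw [map_sum]
  exact sum_congr rfl fun j _ => map_smul _ _ _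

theorem idxT_eq (G : (J → ZMod 2) →ₗ[ZMod 2] (I → ZMod 2)) (x : J → ZMod 2) :
    idxT G x = G x := by
  funext i
  unfold idxT
  have h : G x = G (∑ j, x j • Pi.single j (1 : ZMod 2)) := by
    congr 1
    funext j
    rw [Finset.sum_apply, sum_eq_single j]
    · simp
    · intro b _ hb
      simp [hb.symm]
    · intro h
      exact absurd (mem_univ _) h
  rw [h, map_sum, Finset.sum_apply]
  refine sum_congr rfl fun j _ => ?_
  rw [map_smul, Pi.smul_apply, smul_eq_mul, smul_eq_mul, mul_comm]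

end idxT

/-- Most `b` are good for most `c`. -/
theorem pick {SB SC : Type} [Fintype SB] [Fintype SC] (bad : SB → SC → Prop) (m : ℕ) {δ : ℝ}
    (hm : 1 ≤ m) (hδ : 16 * m * δ ≤ 1)
    (h : (((univ : Finset (SB × SC)).filter fun bc => bad bc.1 bc.2).card : ℝ) ≤
      δ * (Fintype.card SB * Fintype.card SC)) :
    ∃ G : Finset SB, 3 * Fintype.card SB ≤ 4 * G.card ∧
      ∀ b ∈ G, 4 * m * (univ.filter fun c => bad b c).card ≤ Fintype.card SC := by
  obtain ⟨G, hG⟩ : ∃ G : Finset SB, G = univ.filter fun b =>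
    4 * m * (univ.filter fun c => bad b c).card ≤ Fintype.card SC := ⟨_, rfl⟩
  refine ⟨G, ?_, fun b hb => by rw [hG, mem_filter] at hb; exact hb.2⟩
  rcases Nat.eq_zero_or_pos (Fintype.card SC) with hC | hC
  · have h1 : G = univ := by
      rw [hG, filter_eq_self]
      intro b _
      have : IsEmpty SC := Fintype.card_eq_zero_iff.1 hC
      have h2 : (univ.filter fun c => bad b c) = ∅ := by
        ext c
        exact (this.false c).elim
      rw [h2]
      simp
    rw [h1, card_univ]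
    omega
  have h1 : (((univ : Finset (SB × SC)).filter fun bc => bad bc.1 bc.2).card : ℝ) =
      ∑ b, ((univ.filter fun c => bad b c).card : ℝ) := by
    rw [← univ_product_univ, card_filter, sum_product]
    push_cast
    refine sum_congr rfl fun b _ => ?_
    rw [card_filter]
    push_cast
    rfl
  have h2 : ∑ b ∈ Gᶜ, (Fintype.card SC : ℝ) ≤
      ∑ b ∈ Gᶜ, (4 * m * ((univ.filter fun c => bad b c).card : ℝ)) := by
    refine sum_le_sum fun b hb => ?_
    rw [mem_compl, hG, mem_filter, not_and, not_le] at hb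
    have := (hb (mem_univ _)).le
    exact_mod_cast this
  have h3 : ∑ b ∈ Gᶜ, ((univ.filter fun c => bad b c).card : ℝ) ≤
      ∑ b, ((univ.filter fun c => bad b c).card : ℝ) :=
    sum_le_sum_of_subset_of_nonneg (subset_univ _) fun _ _ _ => Nat.cast_nonneg _
  rw [sum_const, nsmul_eq_mul, ← mul_sum] at h2
  rw [h1] at h
  have hm' : (0 : ℝ) < m := by exact_mod_cast hm
  have hC' : (0 : ℝ) < Fintype.card SC := by exact_mod_cast hC
  have h4 : (Gᶜ.card : ℝ) * Fintype.card SC ≤
      4 * m * (δ * (Fintype.card SB * Fintype.card SC)) :=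
    h2.trans (mul_le_mul_of_nonneg_left (h3.trans h) (by positivity))
  have h5 : 4 * (Gᶜ.card : ℝ) ≤ Fintype.card SB := by
    have h6 : 4 * ((Gᶜ.card : ℝ) * Fintype.card SC) ≤
        (16 * m * δ) * (Fintype.card SB * Fintype.card SC) := by nlinarith
    have h7 : (16 * m * δ) * ((Fintype.card SB : ℝ) * Fintype.card SC) ≤
        1 * (Fintype.card SB * Fintype.card SC) :=
      mul_le_mul_of_nonneg_right hδ (by positivity)
    have h8 : (4 * (Gᶜ.card : ℝ)) * Fintype.card SC ≤ Fintype.card SB * Fintype.card SC := by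
      linarith
    exact le_of_mul_le_mul_right h8 hC'
  have h6 : 4 * Gᶜ.card ≤ Fintype.card SB := by exact_mod_cast h5
  have h7 := card_add_card_compl G
  omega

section lin

variable {SB La A : Type} [AddCommGroup La] [Module (ZMod 2) La] [Finite La] [AddCommGroup A]
  [Module (ZMod 2) A]

/-- Few seeds determine an element. -/
theorem basisB (E : SB → La →ₗ[ZMod 2] A) (G : Finset SB)
    (h : ∀ x : La, x ≠ 0 → ∃ b ∈ G, E b x ≠ 0) :
    ∀ (r : ℕ) (K : Submodule (ZMod 2) La), Module.finrank (ZMod 2) K ≤ r →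
      ∃ B ⊆ G, B.card ≤ r ∧ ∀ x ∈ K, (∀ b ∈ B, E b x = 0) → x = 0 := by
  intro r
  induction r with
  | zero =>
    intro K hK
    refine ⟨∅, empty_subset _, le_rfl, fun x hx _ => ?_⟩
    have h1 : K = ⊥ := by
      rw [← Submodule.finrank_eq_zero (R := ZMod 2)]
      omega
    rw [h1, Submodule.mem_bot] at hx
    exact hx
  | succ r ih =>
    intro K hK
    by_cases h0 : ∃ x ∈ K, x ≠ 0
    · obtain ⟨x, hx, hx0⟩ := h0
      obtain ⟨b, hb, hbx⟩ := h x hx0
      have hlt : K ⊓ LinearMap.ker (E b) < K := by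
        refine lt_of_le_of_ne inf_le_left fun heq => hbx ?_
        have : x ∈ K ⊓ LinearMap.ker (E b) := by rw [heq]; exact hx
        exact LinearMap.mem_ker.1 (Submodule.mem_inf.1 this).2
      have hr := Submodule.finrank_lt_finrank_of_lt hlt
      obtain ⟨B, hB, hBc, hBx⟩ := ih (K ⊓ LinearMap.ker (E b)) (by omega)
      refine ⟨insert b B, insert_subset hb hB, (card_insert_le _ _).trans (by omega),
        fun y hy hyB => hBx y (Submodule.mem_inf.2 ⟨hy, LinearMap.mem_ker.2
          (hyB b (mem_insert_self _ _))⟩) fun b' hb' => hyB b' (mem_insert_of_mem hb')⟩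
    · push Not at h0
      exact ⟨∅, empty_subset _, Nat.zero_le _, fun x hx _ => h0 x hx⟩

end lin

/-- Few good seeds determine an element, and most `c` are good for all of them. -/
theorem pickB {SB SC La A : Type} [Fintype SB] [Fintype SC] [Nonempty SB] [Nonempty SC]
    [AddCommGroup La] [Module (ZMod 2) La] [Finite La]
    [AddCommGroup A] [Module (ZMod 2) A] (E : SB → La →ₗ[ZMod 2] A) {e : ℝ} (he : 200 * e ≤ 1)
    (her : 200 * Module.finrank (ZMod 2) La * e ≤ 1)
    (kE : ∀ x, x ≠ 0 → ((univ.filter fun b => E b x = 0).card : ℝ) ≤ 2 * e * Fintype.card SB)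
    (good : SB → SC → Prop)
    (h : (((univ : Finset (SB × SC)).filter fun bc => ¬ good bc.1 bc.2).card : ℝ) ≤
      12 * e * (Fintype.card SB * Fintype.card SC)) :
    ∃ B : Finset SB, (∀ x : La, (∀ b ∈ B, E b x = 0) → x = 0) ∧ (∃ b1, b1 ∈ B) ∧
      3 * Fintype.card SC ≤ 4 * (univ.filter fun c => ∀ b ∈ B, good b c).card := by
  have hSB : 0 < Fintype.card SB := Fintype.card_pos
  have hSC : 0 < Fintype.card SC := Fintype.card_pos
  obtain ⟨r, hr⟩ : ∃ r, r = Module.finrank (ZMod 2) La := ⟨_, rfl⟩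
  rw [← hr] at her
  obtain ⟨m, hm⟩ : ∃ m, m = max r 1 := ⟨_, rfl⟩
  have hm1 : 1 ≤ m := by rw [hm]; exact le_max_right _ _
  have hmr : (m : ℝ) = r ∨ (m : ℝ) = 1 := by
    rw [hm]
    rcases le_total r 1 with h1 | h1
    · right; rw [max_eq_right h1]; simp
    · left; rw [max_eq_left h1]
  have hme : 16 * (m : ℝ) * (12 * e) ≤ 1 := by
    rcases hmr with h1 | h1
    · rw [h1]
      have h2 : (0 : ℝ) ≤ r := Nat.cast_nonneg _
      rcases le_total 0 e with h3 | h3
      · have h4 := mul_nonneg h2 h3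
        linarith
      · have h4 := mul_nonneg h2 (neg_nonneg.2 h3)
        linarith
    · rw [h1]
      linarith
  obtain ⟨Gd, hGd, hGd2⟩ := pick (fun b c => ¬ good b c) m hm1 hme (by convert h)
  have hGE : ∀ x : La, x ≠ 0 → ∃ b ∈ Gd, E b x ≠ 0 := by
    intro x hx
    by_contra hno
    push Not at hno
    have h1 : Gd ⊆ univ.filter fun b => E b x = 0 := fun b hb =>
      mem_filter.2 ⟨mem_univ _, hno b hb⟩
    have h2 : (Gd.card : ℝ) ≤ 2 * e * Fintype.card SB :=
      (Nat.cast_le.2 (card_le_card h1)).trans (kE x hx)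
    have h3 : 3 * (Fintype.card SB : ℝ) ≤ 4 * Gd.card := by exact_mod_cast hGd
    have h4 : (0 : ℝ) < Fintype.card SB := by exact_mod_cast hSB
    have h5 : 200 * e * (Fintype.card SB : ℝ) ≤ 1 * Fintype.card SB :=
      mul_le_mul_of_nonneg_right he h4.le
    linarith
  have hGne : Gd.Nonempty := by
    rw [← card_pos]
    omega
  obtain ⟨b0, hb0⟩ := hGne
  obtain ⟨B, hBG, hBc, hBx, b1, hb1⟩ : ∃ B ⊆ Gd, B.card ≤ m ∧
      (∀ x : La, (∀ b ∈ B, E b x = 0) → x = 0) ∧ ∃ b1, b1 ∈ B := by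
    obtain ⟨B, h1, h2, h3⟩ := basisB E Gd hGE r ⊤ (by rw [finrank_top, hr])
    by_cases hB : B.Nonempty
    · obtain ⟨b1, hb1⟩ := hB
      exact ⟨B, h1, h2.trans (by rw [hm]; exact le_max_left _ _),
        fun x hx => h3 x Submodule.mem_top hx, b1, hb1⟩
    · rw [not_nonempty_iff_eq_empty] at hB
      refine ⟨{b0}, singleton_subset_iff.2 hb0, ?_, fun x hx => h3 x Submodule.mem_top ?_, b0,
        mem_singleton_self _⟩
      · rw [card_singleton]
        exact hm1
      · rw [hB]
        intro b hb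
        exact absurd hb (notMem_empty b)
  refine ⟨B, hBx, ⟨b1, hb1⟩, ?_⟩
  obtain ⟨C, hC⟩ : ∃ C : Finset SC, C = univ.filter fun c => ∀ b ∈ B, good b c := ⟨_, rfl⟩
  rw [← hC]
  have h1 : Cᶜ ⊆ B.biUnion fun b => univ.filter fun c => ¬ good b c := by
    intro c hc
    rw [mem_compl, hC, mem_filter] at hc
    push Not at hc
    obtain ⟨b, hb, hbc⟩ := hc (mem_univ _)
    exact mem_biUnion.2 ⟨b, hb, mem_filter.2 ⟨mem_univ _, hbc⟩⟩
  have h2 := (card_le_card h1).trans card_biUnion_le
  have h3 : 4 * m * ∑ b ∈ B, (univ.filter fun c => ¬ good b c).card ≤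
      B.card * Fintype.card SC := by
    have h5 : ∑ b ∈ B, (4 * m * (univ.filter fun c => ¬ good b c).card) ≤
        ∑ _b ∈ B, Fintype.card SC := by
      refine sum_le_sum fun b hb => le_of_eq_of_le ?_ (hGd2 b (hBG hb))
      congr
    rw [sum_const, smul_eq_mul, ← mul_sum] at h5
    exact h5
  have h4 : 4 * m * Cᶜ.card ≤ m * Fintype.card SC :=
    (Nat.mul_le_mul_left _ h2).trans (h3.trans (Nat.mul_le_mul_right _ hBc))
  have h5 : 4 * Cᶜ.card ≤ Fintype.card SC := by
    have h6 : m * (4 * Cᶜ.card) ≤ m * Fintype.card SC := by linarith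
    exact Nat.le_of_mul_le_mul_left h6 (by omega)
  have h7 := card_add_card_compl C
  omega

/-- The linear algebra. -/
theorem liftT {SB SC J I La A : Type} [Fintype SC] [Nonempty SC]
    [Fintype J] [DecidableEq J] [AddCommGroup La] [Module (ZMod 2) La]
    [AddCommGroup A] [Module (ZMod 2) A] (E : SB → La →ₗ[ZMod 2] A)
    (G : SC → (J → ZMod 2) →ₗ[ZMod 2] (I → ZMod 2)) {e : ℝ} (he : 200 * e ≤ 1)
    (kG : ∀ z, z ≠ 0 → ((univ.filter fun c => G c z = 0).card : ℝ) ≤ 2 * e * Fintype.card SC)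
    (B : Finset SB) (hB : ∀ x : La, (∀ b ∈ B, E b x = 0) → x = 0)
    (q : SB → J → A) (p : SC → I → La) (C : Finset SC)
    (hC : 3 * Fintype.card SC ≤ 4 * C.card)
    (h : ∀ c ∈ C, ∀ b ∈ B, idxT (G c) (q b) = fun i => E b (p c i)) :
    ∃ u : J → La, ∀ c ∈ C, idxT (G c) u = p c := by
  have hSC : 0 < Fintype.card SC := Fintype.card_pos
  obtain ⟨T, hTb⟩ : ∃ T : La →ₗ[ZMod 2] (B → A), ∀ x (b : B), T x b = E b x :=
    ⟨LinearMap.pi fun b => E b, fun x b => rfl⟩
  have hTinj : Function.Injective T := by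
    rw [← LinearMap.ker_eq_bot, LinearMap.ker_eq_bot']
    intro x hx
    refine hB x fun b hb => ?_
    rw [← hTb x ⟨b, hb⟩, hx]
    rfl
  obtain ⟨qv, hqv⟩ : ∃ qv : J → (B → A), ∀ j (b : B), qv j b = q b j :=
    ⟨fun j b => q b j, fun _ _ => rfl⟩
  have hqT : ∀ c ∈ C, ∀ i, idxT (G c) qv i = T (p c i) := by
    intro c hc i
    funext b
    rw [hTb]
    have h1 : idxT (G c) (q b) i = E b (p c i) := congrFun (h c hc b b.2) i
    rw [← h1]
    unfold idxT
    rw [Finset.sum_apply]
    refine sum_congr rfl fun j _ => ?_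
    rw [Pi.smul_apply, hqv]
  have hmem : ∀ j, qv j ∈ LinearMap.range T := by
    intro j
    by_contra hj
    obtain ⟨φ, hφ, hker⟩ := Submodule.exists_le_ker_of_notMem hj
    have hz : (fun j => φ (qv j)) ≠ 0 := fun h0 => hφ (congrFun h0 j)
    have h1 : C ⊆ univ.filter fun c => G c (fun j => φ (qv j)) = 0 := by
      intro c hc
      refine mem_filter.2 ⟨mem_univ _, ?_⟩
      rw [← idxT_eq]
      funext i
      rw [← idxT_map, hqT c hc i]
      exact LinearMap.mem_ker.1 (hker (LinearMap.mem_range_self T _))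
    have h2 : (C.card : ℝ) ≤ 2 * e * Fintype.card SC :=
      (Nat.cast_le.2 (card_le_card h1)).trans (kG _ hz)
    have h3 : 3 * (Fintype.card SC : ℝ) ≤ 4 * C.card := by exact_mod_cast hC
    have h4 : (0 : ℝ) < Fintype.card SC := by exact_mod_cast hSC
    have h5 : 200 * e * (Fintype.card SC : ℝ) ≤ 1 * Fintype.card SC :=
      mul_le_mul_of_nonneg_right he h4.le
    linarith
  choose u hu using hmem
  refine ⟨u, fun c hc => ?_⟩
  funext i
  apply hTinj
  rw [idxT_map, ← hqT c hc i]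
  congr 1
  funext j
  exact hu j

/-- **Extension for tensors.** -/
theorem extT {SB SC J I L La A : Type} [Fintype SB] [Fintype SC] [Nonempty SB] [Nonempty SC]
    [Fintype J] [DecidableEq J] [AddCommGroup La] [Module (ZMod 2) La] [Finite La]
    [AddCommGroup A] [Module (ZMod 2) A] (E : SB → La →ₗ[ZMod 2] A)
    (G : SC → (J → ZMod 2) →ₗ[ZMod 2] (I → ZMod 2)) {e : ℝ} (he : 200 * e ≤ 1)
    (her : 200 * Module.finrank (ZMod 2) La * e ≤ 1)
    (kE : ∀ x, x ≠ 0 → ((univ.filter fun b => E b x = 0).card : ℝ) ≤ 2 * e * Fintype.card SB)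
    (kG : ∀ z, z ≠ 0 → ((univ.filter fun c => G c z = 0).card : ℝ) ≤ 2 * e * Fintype.card SC)
    (q : SB → (J → A) × L) (p : SC → (I → La) × L)
    (h : (((univ : Finset (SB × SC)).filter fun bc => ¬ ((idxT (G bc.2) (q bc.1).1, (q bc.1).2) =
      ((fun i => E bc.1 ((p bc.2).1 i)), (p bc.2).2))).card : ℝ) ≤
      12 * e * (Fintype.card SB * Fintype.card SC)) :
    ∃ u : (J → La) × L,
      3 * Fintype.card SC ≤ 4 * (univ.filter fun c => (idxT (G c) u.1, u.2) = p c).card := by
  obtain ⟨good, hgood⟩ : ∃ good : SB → SC → Prop, good = fun b c =>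
    (idxT (G c) (q b).1, (q b).2) = ((fun i => E b ((p c).1 i)), (p c).2) := ⟨_, rfl⟩
  obtain ⟨B, hBx, ⟨b1, hb1⟩, hC⟩ := pickB E he her kE good (by
    rw [hgood]
    convert h)
  have hgd : ∀ b c, good b c →
      (idxT (G c) (q b).1, (q b).2) = ((fun i => E b ((p c).1 i)), (p c).2) := fun b c h => by
    rw [hgood] at h
    exact h
  obtain ⟨u, hu⟩ := liftT E G he kG B hBx (fun b => (q b).1) (fun c => (p c).1) _ hC
    fun c hc b hb => congrArg Prod.fst (hgd b c ((mem_filter.1 hc).2 b hb))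
  refine ⟨(u, (q b1).2), hC.trans (Nat.mul_le_mul_left _ (card_le_card fun c hc => ?_))⟩
  refine mem_filter.2 ⟨mem_univ _, Prod.ext (hu c hc) ?_⟩
  have h1 := congrArg Prod.snd (hgd b1 c ((mem_filter.1 hc).2 b1 hb1))
  exact h1

end Vale.Agent.P318.H17
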