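import Vale.Agent.P318.H891.Glue

/-!
# P318, gluing in two coordinates, with pairs of seeds in one of them

`Sq`: commuting operators `be b`, `ga c`; `Dt`: measures `Q b`, `P c`, and `PP c c'` above pairs.
`glue2'`: consistent measures are the images of one small measure.
-/

set_option autoImplicit false
set_option linter.unusedSectionVars false

namespace Vale.Agent.P318.H17

open Finset H891
open scoped BigOperators Classical

/-! ### counting -/

section count

variable {X Y : Type*}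

/-- The points with at least two elements above. -/
noncomputable def mul2 (f : X → Y) (U : Finset X) : Finset Y :=
  sep (U.image f) fun r => ∃ x ∈ U, ∃ y ∈ U, x ≠ y ∧ f x = r ∧ f y = r

theorem mul2_card (f : X → Y) (U : Finset X) : (mul2 f U).card + (U.image f).card ≤ U.card := by
  have h1 : U.card = ∑ e ∈ U.image f, (U.filter fun u => f u = e).card :=
    card_eq_sum_card_image f U
  have h2 : (mul2 f U).card = ∑ e ∈ U.image f, (if ∃ x ∈ U, ∃ y ∈ U, x ≠ y ∧ f x = e ∧ f y = e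
      then 1 else 0) := by
    unfold mul2 sep
    rw [card_filter]
    refine sum_congr rfl fun y _ => ?_
    congr
  have h3 : (U.image f).card = ∑ e ∈ U.image f, 1 := by simp
  have h4 : (mul2 f U).card + (U.image f).card ≤
      ∑ e ∈ U.image f, (U.filter fun u => f u = e).card := by
    rw [h2, h3, ← sum_add_distrib]
    refine sum_le_sum fun e he => ?_
    split_ifs with h
    · obtain ⟨x, hx, y, hy, hxy, hx', hy'⟩ := h
      have : 1 < (U.filter fun u => f u = e).card :=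
        one_lt_card.2 ⟨x, mem_filter.2 ⟨hx, hx'⟩, y, mem_filter.2 ⟨hy, hy'⟩, hxy⟩
      omega
    · obtain ⟨u, hu, hue⟩ := mem_image.1 he
      have : 0 < (U.filter fun u => f u = e).card :=
        card_pos.2 ⟨u, mem_filter.2 ⟨hu, hue⟩⟩
      omega
  omega

variable {S : Type*} [Fintype S] [Nonempty S] {f : S → X → Y} {δ : ℝ} {W : ℕ}

theorem mul2_le (h : Cond f δ W) {U : Finset X} (hU : U.card ≤ W) :
    𝔼 s, ((mul2 (f s) U).card : ℝ) ≤ δ * U.card := by
  have h1 : 𝔼 s, ((mul2 (f s) U).card : ℝ) ≤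
      𝔼 s, ((U.card : ℝ) - ((U.image (f s)).card : ℝ)) :=
    expect_le_expect fun s _ => by
      have h2 : ((mul2 (f s) U).card : ℝ) + ((U.image (f s)).card : ℝ) ≤ U.card := by
        exact_mod_cast mul2_card (f s) U
      linarith
  rw [expect_sub_distrib, Fintype.expect_const] at h1
  have h3 := h U hU
  linarith

end count

section push

variable {X Y : Type*} [Fintype X]

theorem push_card (f : X → Y) (μ : X → ZMod 2) (y : Y) :
    H891.push f μ y = ((sep (su μ) fun x => f x = y).card : ZMod 2) := by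
  unfold H891.push sep su
  rw [card_filter, sum_filter, sum_filter]
  push_cast
  refine sum_congr rfl fun x _ => ?_
  by_cases h : f x = y
  · rw [if_pos h, if_pos h]
    have : ∀ a : ZMod 2, a = if a ≠ 0 then 1 else 0 := by decide
    exact this (μ x)
  · rw [if_neg h, if_neg h, ite_self]

variable [Fintype Y]

/-- The number of elements above a point of the support of the image is odd. -/
theorem odd_card {f : X → Y} {μ : X → ZMod 2} {y : Y} (h : y ∈ su (H891.push f μ)) :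
    Odd (sep (su μ) fun x => f x = y).card := by
  unfold su at h
  rw [mem_filter, push_card] at h
  by_contra hno
  rw [Nat.not_odd_iff_even] at hno
  exact h.2 ((ZMod.natCast_eq_zero_iff_even).2 hno)

theorem three_card (f : X → Y) (μ : X → ZMod 2) : (su (H891.push f μ)).card +
    2 * (sep (su (H891.push f μ)) fun y => ¬ ∃ x ∈ su μ, f x = y ∧
      ∀ x' ∈ su μ, f x' = y → x' = x).card ≤ (su μ).card := by
  obtain ⟨V, hV⟩ : ∃ V, V = su (H891.push f μ) := ⟨_, rfl⟩
  have h1 : ∑ y ∈ V, (sep (su μ) fun x => f x = y).card ≤ (su μ).card := by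
    have h2 : ∑ y ∈ V, (sep (su μ) fun x => f x = y).card ≤
        ∑ y, (sep (su μ) fun x => f x = y).card :=
      sum_le_sum_of_subset (subset_univ _)
    refine h2.trans ?_
    have h3 := card_eq_sum_card_fiberwise (f := f) (s := su μ) (t := univ) fun x _ => by simp
    rw [h3]
    rfl
  have h2 : (sep V fun y => ¬ ∃ x ∈ su μ, f x = y ∧ ∀ x' ∈ su μ, f x' = y → x' = x).card =
      ∑ y ∈ V, (if ¬ ∃ x ∈ su μ, f x = y ∧ ∀ x' ∈ su μ, f x' = y → x' = x then 1 else 0) := by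
    unfold sep
    rw [card_filter]
    refine sum_congr rfl fun y _ => ?_
    congr
  have h3 : V.card = ∑ y ∈ V, 1 := by simp
  rw [← hV]
  refine le_trans ?_ h1
  rw [h2, h3, mul_sum, ← sum_add_distrib]
  refine sum_le_sum fun y hy => ?_
  rw [hV] at hy
  obtain ⟨k, hk⟩ := odd_card hy
  by_cases h : ∃ x ∈ su μ, f x = y ∧ ∀ x' ∈ su μ, f x' = y → x' = x
  swap
  · rw [if_pos h]
    have h4 : k ≠ 0 := by
      rintro rfl
      apply h
      obtain ⟨x, hx⟩ := card_eq_one.1 hk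
      have hx' : x ∈ sep (su μ) fun x => f x = y := by rw [hx]; exact mem_singleton_self x
      rw [mem_sep] at hx'
      refine ⟨x, hx'.1, hx'.2, fun x' h1 h2 => ?_⟩
      have h3 : x' ∈ sep (su μ) fun x => f x = y := mem_sep.2 ⟨h1, h2⟩
      rw [hx, mem_singleton] at h3
      exact h3
    omega
  · rw [if_neg (not_not.2 h)]
    omega

theorem out_card (f : X → Y) (μ : X → ZMod 2) : (su (H891.push f μ)).card +
    (sep (su μ) fun x => f x ∉ su (H891.push f μ)).card ≤ (su μ).card := by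
  have h1 : (su (H891.push f μ)).card ≤
      (sep (su μ) fun x => f x ∈ su (H891.push f μ)).card := by
    refine card_le_card_of_forall_subsingleton (fun y x => f x = y) (fun y hy => ?_)
      fun x _ y hy y' hy' => hy.2.symm.trans hy'.2
    obtain ⟨x, hx, hxy⟩ := su_push f μ hy
    exact ⟨x, mem_sep.2 ⟨hx, by rw [hxy]; exact hy⟩, hxy⟩
  have h2 : (sep (su μ) fun x => f x ∈ su (H891.push f μ)).card +
      (sep (su μ) fun x => f x ∉ su (H891.push f μ)).card = (su μ).card := by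
    unfold sep
    have h3 := card_filter_add_card_filter_not (s := su μ) (fun x => f x ∈ su (H891.push f μ))
    convert h3
  omega

end push

section point

variable {X Y : Type*}

/-- The measure of one point. -/
noncomputable def pt (x : X) : X → ZMod 2 := Pi.single x 1

theorem push_pt [Fintype X] [Fintype Y] (f : X → Y) (x : X) : H891.push f (pt x) = pt (f x) :=
  push_single f x

theorem add_pt (μ : X → ZMod 2) (v : X) : μ + pt v + pt v = μ := add_single_twice μ v

theorem sz_pt [Fintype X] (μ : X → ZMod 2) (v : X) :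
    ((su (μ + pt v)).card : ℝ) ≤ (su μ).card + 1 - 2 * ind (v ∈ su μ) := sz_sub μ v

theorem sz_pt' [Fintype X] (μ : X → ZMod 2) (v : X) :
    (su (μ + pt v)).card ≤ (su μ).card + 1 := sz_sub' μ v

end point

/-! ### the data -/

section data

/-- Commuting operators. -/
structure Sq (SB SC Z Zb Zc Zbc : Type*) where
  be : SB → Z → Zb
  be' : SB → Zc → Zbc
  ga : SC → Z → Zc
  ga' : SC → Zb → Zbc
  comm : ∀ b c x, be' b (ga c x) = ga' c (be b x)

variable {SB SC Z Zb Zc Zbc : Type*} [Fintype Z] [Fintype Zb] [Fintype Zc] [Fintype Zbc]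

/-- The operator in the first direction, for pairs. -/
def Sq.bb (K : Sq SB SC Z Zb Zc Zbc) (b : SB) (p : Zc × Zc) : Zbc × Zbc :=
  (K.be' b p.1, K.be' b p.2)

/-- A pair of operators in the second direction. -/
def Sq.gg (K : Sq SB SC Z Zb Zc Zbc) (c c' : SC) (q : Zb) : Zbc × Zbc :=
  (K.ga' c q, K.ga' c' q)

/-- Consistent measures. -/
structure Dt (K : Sq SB SC Z Zb Zc Zbc) where
  Q : SB → Zb → ZMod 2
  P : SC → Zc → ZMod 2
  R : SC → SC → Zc × Zc → ZMod 2
  h1 : ∀ c c', H891.push Prod.fst (R c c') = P c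
  h2 : ∀ c c', H891.push Prod.snd (R c c') = P c'
  h3 : ∀ b c c', H891.push (K.bb b) (R c c') = H891.push (K.gg c c') (Q b)

variable {K : Sq SB SC Z Zb Zc Zbc} (D : Dt K)

theorem Dt.h4 (D : Dt K) [Nonempty SC] (b : SB) (c : SC) :
    H891.push (K.be' b) (D.P c) = H891.push (K.ga' c) (D.Q b) := by
  have h := congrArg (H891.push Prod.fst) (D.h3 b c c)
  rw [push_push, push_push] at h
  have h5 : H891.push (fun x => (K.bb b x).1) (D.R c c) = H891.push (K.be' b) (D.P c) := by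
    rw [← D.h1 c c, push_push]
    rfl
  rw [h5] at h
  exact h

/-- The element `p` is good for the seeds `b, c, c'`. -/
def Dt.Gd (b : SB) (c c' : SC) (p : Zc) : Prop :=
  ∃ p' q, p' ∈ su (D.P c') ∧ (p, p') ∈ su (D.R c c') ∧
    (∀ x ∈ su (D.R c c'), x.1 = p → x = (p, p')) ∧ q ∈ su (D.Q b) ∧
    (∀ q' ∈ su (D.Q b), K.ga' c q' = K.be' b p → q' = q) ∧ K.ga' c q = K.be' b p ∧
    K.ga' c' q = K.be' b p'

noncomputable def Dt.N1 (c c' : SC) : ℕ := (sep (su (D.P c)) fun p =>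
  ¬ ∃ x ∈ su (D.R c c'), x.1 = p ∧ ∀ x' ∈ su (D.R c c'), x'.1 = p → x' = x).card

noncomputable def Dt.N2 (b : SB) (c c' : SC) : ℕ := (non (K.bb b) (su (D.R c c'))).card

noncomputable def Dt.N3 (b : SB) (c : SC) : ℕ := (non (K.be' b) (su (D.P c))).card

noncomputable def Dt.N4 (b : SB) (c : SC) : ℕ := (mul2 (K.ga' c) (su (D.Q b))).card

noncomputable def Dt.N5 (c c' : SC) : ℕ :=
  (sep (su (D.R c c')) fun x => x.2 ∉ su (D.P c')).card

/-- **The number of the elements which are not good.** -/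
theorem Dt.count (b : SB) (c c' : SC) : (su (D.P c)).card ≤
    (sep (su (D.P c)) fun p => D.Gd b c c' p).card +
      (D.N1 c c' + D.N2 b c c' + D.N3 b c + D.N4 b c + D.N5 c c') := by
  obtain ⟨U, hU⟩ : ∃ U, U = su (D.P c) := ⟨_, rfl⟩
  have c1 : (sep U fun p => ¬ ∃ x ∈ su (D.R c c'), x.1 = p ∧
      ∀ x' ∈ su (D.R c c'), x'.1 = p → x' = x).card ≤ D.N1 c c' := by rw [hU]; exact le_rfl
  have c2 : (sep U fun p => ∃ x ∈ non (K.bb b) (su (D.R c c')), x.1 = p).card ≤ D.N2 b c c' :=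
    rel_card (r := fun p (x : Zc × Zc) => x.1 = p) (fun p _ h => h)
      fun p p' x h h' => h.symm.trans h'
  have c3 : (sep U fun p => p ∈ non (K.be' b) U).card ≤ D.N3 b c := by
    rw [hU]
    exact card_le_card fun p hp => (mem_sep.1 hp).2
  have c4 : (sep U fun p => Iso (K.be' b) U p ∧ K.be' b p ∈ mul2 (K.ga' c) (su (D.Q b))).card ≤
      D.N4 b c :=
    rel_card (r := fun p y => p ∈ U ∧ Iso (K.be' b) U p ∧ K.be' b p = y)
      (fun p hp h => ⟨_, h.2, hp, h.1, rfl⟩)
      fun p p' y h h' => h'.2.1 p h.1 (h.2.2.trans h'.2.2.symm)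
  have c5 : (sep U fun p => ∃ x ∈ sep (su (D.R c c')) fun x => x.2 ∉ su (D.P c'), x.1 = p).card ≤
      D.N5 c c' :=
    rel_card (r := fun p (x : Zc × Zc) => x.1 = p) (fun p _ h => h)
      fun p p' x h h' => h.symm.trans h'
  rw [← hU]
  have hcov : U ⊆ (sep U fun p => D.Gd b c c' p) ∪
      ((sep U fun p => ¬ ∃ x ∈ su (D.R c c'), x.1 = p ∧
        ∀ x' ∈ su (D.R c c'), x'.1 = p → x' = x) ∪
      ((sep U fun p => ∃ x ∈ non (K.bb b) (su (D.R c c')), x.1 = p) ∪
      ((sep U fun p => p ∈ non (K.be' b) U) ∪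
      ((sep U fun p => Iso (K.be' b) U p ∧ K.be' b p ∈ mul2 (K.ga' c) (su (D.Q b))) ∪
      (sep U fun p => ∃ x ∈ sep (su (D.R c c')) fun x => x.2 ∉ su (D.P c'), x.1 = p))))) := by
    intro p hp
    simp only [mem_union, mem_sep, hp, true_and]
    by_contra hcon
    rw [not_or, not_or, not_or, not_or, not_or] at hcon
    obtain ⟨n0, n1, n2, n3, n4, n5⟩ := hcon
    rw [not_not] at n1
    obtain ⟨x, hx, hxp, hxu⟩ := n1
    have i2 : Iso (K.bb b) (su (D.R c c')) x := by
      by_contra h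
      exact n2 ⟨x, mem_non.2 ⟨hx, h⟩, hxp⟩
    have i3 : Iso (K.be' b) U p := by
      by_contra h
      exact n3 (mem_non.2 ⟨hp, h⟩)
    have i5 : x.2 ∈ su (D.P c') := by
      by_contra h
      exact n5 ⟨x, ⟨hx, h⟩, hxp⟩
    have m1 : K.bb b x ∈ su (H891.push (K.gg c c') (D.Q b)) := by
      rw [← D.h3]
      exact iso_su hx i2
    obtain ⟨q, hq, hqx⟩ := su_push _ _ m1
    have e1 : K.ga' c q = K.be' b p := by
      have := congrArg Prod.fst hqx
      rw [← hxp]
      exact this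
    have e2 : K.ga' c' q = K.be' b x.2 := congrArg Prod.snd hqx
    have hx' : x = (p, x.2) := by rw [← hxp]
    refine n0 ⟨x.2, q, i5, by rw [← hx']; exact hx, fun y hy hyp => ?_, hq, fun q' hq' hq'p => ?_,
      e1, e2⟩
    · rw [← hx']
      exact hxu y hy hyp
    · by_contra hne
      refine n4 ⟨i3, ?_⟩
      unfold mul2
      rw [mem_sep, mem_image]
      exact ⟨⟨q, hq, e1⟩, q', hq', q, hq, hne, hq'p, e1⟩
  have h1 := card_le_card hcov
  have u : ∀ (s t : Finset Zc) (m : ℕ), t.card ≤ m → (s ∪ t).card ≤ s.card + m := fun s t m h =>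
    (card_union_le s t).trans (Nat.add_le_add_left h _)
  have h2 := h1.trans (u _ _ _ (u _ _ _ (u _ _ _ (u _ _ _ (card_union_le _ _)))))
  omega

end data

/-! ### averages -/

section av

variable {SB SC : Type*} [Fintype SB] [Fintype SC] [Nonempty SB] [Nonempty SC]
  {f g : SB → SC → SC → ℝ} {a : ℝ}

/-- The average over three seeds. -/
noncomputable def Av3 (f : SB → SC → SC → ℝ) : ℝ := 𝔼 b, 𝔼 c, 𝔼 c', f b c c'

theorem Av3_mono (h : ∀ b c c', f b c c' ≤ g b c c') : Av3 f ≤ Av3 g :=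
  expect_le_expect fun b _ => expect_le_expect fun c _ => expect_le_expect fun c' _ => h b c c'

theorem Av3_add : Av3 (fun b c c' => f b c c' + g b c c') = Av3 f + Av3 g := by
  unfold Av3
  simp only [expect_add_distrib]

theorem Av3_all (h : ∀ b c c', f b c c' ≤ a) : Av3 f ≤ a :=
  ex_le fun b => ex_le fun c => ex_le fun c' => h b c c'

theorem Av3_c (h : ∀ b c', 𝔼 c, f b c c' ≤ a) : Av3 f ≤ a := by
  refine ex_le fun b => ?_
  rw [expect_comm]
  exact ex_le fun c' => h b c'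

theorem Av3_b (h : ∀ c c', 𝔼 b, f b c c' ≤ a) : Av3 f ≤ a := by
  have e : Av3 f = 𝔼 c, 𝔼 c', 𝔼 b, f b c c' := by
    unfold Av3
    rw [expect_comm]
    exact expect_congr rfl fun c _ => expect_comm _ _ _
  rw [e]
  exact ex_le fun c => ex_le fun c' => h c c'

theorem Av3_front : Av3 f = 𝔼 c, 𝔼 b, 𝔼 c', f b c c' := expect_comm _ _ _

end av

/-! ### the lemma -/

section glue

variable {SB SC Z Zb Zc Zbc : Type*} [Fintype SB] [Fintype SC] [Nonempty SB] [Nonempty SC]
  [Fintype Z] [Fintype Zb] [Fintype Zc] [Fintype Zbc]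

/-- All operators are lossless. -/
structure Ls (K : Sq SB SC Z Zb Zc Zbc) (e : ℝ) (W : ℕ) : Prop where
  bb : Cond K.bb e W
  b' : Cond K.be' e W
  c' : Cond K.ga' e W
  c : Cond K.ga e W

variable {K : Sq SB SC Z Zb Zc Zbc} {e : ℝ} {W W' : ℕ} {D : Dt K}

/-- The average size. -/
noncomputable def Dt.A (D : Dt K) : ℝ := 𝔼 c, ((su (D.P c)).card : ℝ)

theorem Dt.A_nn : 0 ≤ D.A := expect_nonneg fun _ _ => Nat.cast_nonneg _

/-- All sizes are at most `W`. -/
structure Dt.Sz (D : Dt K) (W : ℕ) : Prop where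
  p : ∀ c, (su (D.P c)).card ≤ W
  q : ∀ b, (su (D.Q b)).card ≤ W
  r : ∀ c c', (su (D.R c c')).card ≤ W

theorem Dt.q_le (HL : Ls K e W') (hs : D.Sz W') (b : SB) :
    (1 - 2 * e) * (su (D.Q b)).card ≤ D.A := by
  refine (HL.c'.sz (hs.q b)).trans (expect_le_expect fun c _ => ?_)
  rw [← D.h4 b c]
  exact Nat.cast_le.2 (sz_push _ _)

theorem Dt.r_le (HL : Ls K e W') (hs : D.Sz W') (he : 2 * e ≤ 1) (c c' : SC) :
    (1 - 2 * e) * ((1 - 2 * e) * (su (D.R c c')).card) ≤ D.A := by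
  have h1 : (1 - 2 * e) * (su (D.R c c')).card ≤ 𝔼 b, ((su (D.Q b)).card : ℝ) := by
    refine (HL.bb.sz (hs.r c c')).trans (expect_le_expect fun b _ => ?_)
    rw [D.h3 b c c']
    exact Nat.cast_le.2 (sz_push _ _)
  refine (mul_le_mul_of_nonneg_left h1 (by linarith)).trans ?_
  rw [mul_expect]
  exact ex_le fun y => Dt.q_le HL hs y

/-- The sizes in terms of the average. -/
theorem Dt.bds (HL : Ls K e W') (hs : D.Sz W') (he : 200 * e ≤ 1) {M : ℝ}
    (hM : M = D.A / (1 - 2 * e) ^ 2) : (∀ c, ((su (D.P c)).card : ℝ) ≤ M) ∧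
      (∀ b, (1 - 2 * e) * ((su (D.Q b)).card : ℝ) ≤ D.A) ∧
      ∀ c c', ((su (D.R c c')).card : ℝ) ≤ M := by
  have hp : 0 < (1 - 2 * e) ^ 2 := by
    have : 0 < 1 - 2 * e := by linarith
    positivity
  have hr : ∀ c c', ((su (D.R c c')).card : ℝ) ≤ M := fun c c' => by
    rw [hM, le_div_iff₀ hp]
    have := Dt.r_le HL hs (by linarith) c c'
    nlinarith
  refine ⟨fun c => le_trans ?_ (hr c c), Dt.q_le HL hs, hr⟩
  rw [← D.h1 c c]
  exact Nat.cast_le.2 (sz_push _ _)

theorem Av3_const_c (f : SC → ℝ) : Av3 (fun (_ : SB) c _ => f c) = 𝔼 c, f c := by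
  unfold Av3
  simp only [Fintype.expect_const]

theorem Av3_const_c' (f : SC → ℝ) : Av3 (fun (_ : SB) _ c' => f c') = 𝔼 c, f c := by
  unfold Av3
  simp only [Fintype.expect_const]

/-- **The average number of good elements.** -/
theorem Dt.avG (HL : Ls K e W') (hs : D.Sz W') (h0 : 0 ≤ e) (he : 200 * e ≤ 1) :
    (1 - 12 * e) * D.A ≤
      Av3 fun b c c' => ((sep (su (D.P c)) fun p => D.Gd b c c' p).card : ℝ) := by
  obtain ⟨M, hM⟩ : ∃ M, M = D.A / (1 - 2 * e) ^ 2 := ⟨_, rfl⟩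
  obtain ⟨bp, bq, br⟩ := Dt.bds HL hs he hM
  have hA : 0 ≤ D.A := Dt.A_nn
  have hMA : M ≤ (1 + 21 / 5 * e) * D.A := by
    rw [hM, div_le_iff₀ (by
      have : 0 < 1 - 2 * e := by linarith
      positivity)]
    have h1 : 1 ≤ (1 + 21 / 5 * e) * (1 - 2 * e) ^ 2 := by
      nlinarith [mul_nonneg h0 (sub_nonneg.2 he), mul_nonneg h0 (mul_nonneg h0 h0)]
    have h2 := mul_le_mul_of_nonneg_left h1 hA
    linarith
  have hAM : D.A ≤ M := ex_le bp
  have n1 : Av3 (fun (_ : SB) c c' => (D.N1 c c' : ℝ)) ≤ (M - D.A) / 2 := by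
    have h1 : Av3 (fun (_ : SB) c c' => (D.N1 c c' : ℝ)) ≤
        Av3 (fun (_ : SB) c (_ : SC) => (M - (su (D.P c)).card) / 2) := by
      refine Av3_mono fun b c c' => ?_
      have h2 := three_card Prod.fst (D.R c c')
      rw [D.h1] at h2
      have h3 : ((su (D.P c)).card : ℝ) + 2 * (D.N1 c c' : ℝ) ≤ (su (D.R c c')).card := by
        exact_mod_cast h2
      have h4 := br c c'
      linarith
    refine h1.trans (le_of_eq ?_)
    rw [Av3_const_c fun c => (M - ((su (D.P c)).card : ℝ)) / 2, ← expect_div,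
      expect_sub_distrib, Fintype.expect_const]
    rfl
  have n2 : Av3 (fun b c c' => (D.N2 b c c' : ℝ)) ≤ 2 * e * M :=
    Av3_b fun c c' => (HL.bb.non_le (hs.r c c')).trans
      (mul_le_mul_of_nonneg_left (br c c') (by linarith))
  have n3 : Av3 (fun b c (_ : SC) => (D.N3 b c : ℝ)) ≤ 2 * e * D.A := by
    have h1 : Av3 (fun b c (_ : SC) => (D.N3 b c : ℝ)) = 𝔼 c, 𝔼 b, (D.N3 b c : ℝ) := by
      rw [Av3_front]
      simp only [Fintype.expect_const]
    rw [h1]
    have h2 : 𝔼 c, 𝔼 b, (D.N3 b c : ℝ) ≤ 𝔼 c, (2 * e * ((su (D.P c)).card : ℝ)) :=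
      expect_le_expect fun c _ => HL.b'.non_le (hs.p c)
    rw [← mul_expect] at h2
    exact h2
  have n4 : Av3 (fun b c (_ : SC) => (D.N4 b c : ℝ)) ≤ 11 / 10 * e * D.A := by
    refine Av3_c fun b c' => (mul2_le HL.c' (hs.q b)).trans ?_
    have h1 := bq b
    have h2 : ((su (D.Q b)).card : ℝ) ≤ 11 / 10 * D.A := by
      have h3 : (0 : ℝ) ≤ (su (D.Q b)).card := Nat.cast_nonneg _
      nlinarith
    have h3 := mul_le_mul_of_nonneg_left h2 h0
    linarith
  have n5 : Av3 (fun (_ : SB) c c' => (D.N5 c c' : ℝ)) ≤ M - D.A := by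
    have h1 : Av3 (fun (_ : SB) c c' => (D.N5 c c' : ℝ)) ≤
        Av3 (fun (_ : SB) (_ : SC) c' => M - (su (D.P c')).card) := by
      refine Av3_mono fun b c c' => ?_
      have h2 := out_card Prod.snd (D.R c c')
      rw [D.h2] at h2
      have h3 : ((su (D.P c')).card : ℝ) + (D.N5 c c' : ℝ) ≤ (su (D.R c c')).card := by
        exact_mod_cast h2
      have h4 := br c c'
      linarith
    refine h1.trans (le_of_eq ?_)
    rw [Av3_const_c' fun c => (M - ((su (D.P c)).card : ℝ)),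
      expect_sub_distrib, Fintype.expect_const]
    rfl
  have key : Av3 (fun (_ : SB) c (_ : SC) => ((su (D.P c)).card : ℝ)) ≤
      Av3 fun b c c' => ((sep (su (D.P c)) fun p => D.Gd b c c' p).card : ℝ) +
        ((((D.N1 c c' : ℝ) + D.N2 b c c') + D.N3 b c) + D.N4 b c + D.N5 c c') :=
    Av3_mono fun b c c' => by exact_mod_cast D.count b c c'
  rw [Av3_const_c] at key
  simp only [Av3_add] at key
  have hA' : D.A = 𝔼 c, ((su (D.P c)).card : ℝ) := rfl
  rw [← hA'] at key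
  have h5 : 2 * e * M ≤ 21 / 10 * e * D.A := by
    have h6 : (2 * e) * M ≤ (2 * e) * ((1 + 21 / 5 * e) * D.A) :=
      mul_le_mul_of_nonneg_left hMA (by linarith)
    have h7 : (0 : ℝ) ≤ e * D.A := mul_nonneg h0 hA
    nlinarith
  nlinarith

/-- **The best element.** -/
theorem Dt.best (HL : Ls K e W') (hs : D.Sz W') (h0 : 0 ≤ e) (he : 200 * e ≤ 1)
    (hA : 0 < D.A) : ∃ c, ∃ p ∈ su (D.P c),
      1 - 12 * e ≤ 𝔼 b, 𝔼 c', ind (D.Gd b c c' p) := by
  have h1 := Dt.avG HL hs h0 he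
  rw [Av3_front] at h1
  by_contra hcon
  push Not at hcon
  have e1 : ∀ c, 𝔼 b, 𝔼 c', ((sep (su (D.P c)) fun p => D.Gd b c c' p).card : ℝ) =
      ∑ p ∈ su (D.P c), 𝔼 b, 𝔼 c', ind (D.Gd b c c' p) := by
    intro c
    simp only [card_sep, expect_sum_comm]
  simp only [e1] at h1
  have h3 : ∀ c, ∑ p ∈ su (D.P c), 𝔼 b, 𝔼 c', ind (D.Gd b c c' p) ≤
      (1 - 12 * e) * (su (D.P c)).card := by
    intro c
    have h4 : ∑ p ∈ su (D.P c), 𝔼 b, 𝔼 c', ind (D.Gd b c c' p) ≤
        ∑ _p ∈ su (D.P c), (1 - 12 * e) := sum_le_sum fun p hp => (hcon c p hp).le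
    rw [sum_const, nsmul_eq_mul] at h4
    linarith
  have h2 : 𝔼 c, ∑ p ∈ su (D.P c), 𝔼 b, 𝔼 c', ind (D.Gd b c c' p) <
      𝔼 c, ((1 - 12 * e) * (su (D.P c)).card) := by
    apply expect_lt_expect
    · intro c _
      exact h3 c
    · have h5 : ∃ c, 0 < (su (D.P c)).card := by
        by_contra hno
        push Not at hno
        have h6 : D.A ≤ 0 := ex_le fun c => by
          have := hno c
          exact_mod_cast this
        linarith
      obtain ⟨c, hc⟩ := h5
      refine ⟨c, mem_univ _, ?_⟩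
      have h4 : ∑ p ∈ su (D.P c), 𝔼 b, 𝔼 c', ind (D.Gd b c c' p) <
          ∑ _p ∈ su (D.P c), (1 - 12 * e) :=
        sum_lt_sum_of_nonempty (card_pos.1 hc) fun p hp => hcon c p hp
      rw [sum_const, nsmul_eq_mul] at h4
      linarith
  rw [← mul_expect] at h2
  have hA' : D.A = 𝔼 c, ((su (D.P c)).card : ℝ) := rfl
  rw [← hA'] at h2
  linarith

/-- Extension: almost threads come from points. -/
def Ex2 (K : Sq SB SC Z Zb Zc Zbc) (e : ℝ) : Prop :=
  ∀ (q : SB → Zb) (p : SC → Zc),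
    1 - 12 * e ≤ 𝔼 b, 𝔼 c, ind (K.ga' c (q b) = K.be' b (p c)) →
    ∃ u, 3 / 4 ≤ 𝔼 c, ind (K.ga c u = p c)

/-- **A point above most of the measures.** -/
theorem Dt.point (HL : Ls K e W') (hs : D.Sz W') (h0 : 0 ≤ e) (he : 200 * e ≤ 1)
    (hA : 0 < D.A) (hE : Ex2 K e) : ∃ u, 5 / 8 ≤ 𝔼 c, ind (K.ga c u ∈ su (D.P c)) := by
  obtain ⟨c0, p0, hp0, h1⟩ := Dt.best HL hs h0 he hA
  have hp : ∀ c' : SC, ∃ p', ∀ b, D.Gd b c0 c' p0 → p' ∈ su (D.P c') ∧
      (p0, p') ∈ su (D.R c0 c') := by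
    intro c'
    by_cases h : ∃ b, D.Gd b c0 c' p0
    · obtain ⟨b, p', q, g1, g2, g3, g4, g5, g6, g7⟩ := h
      exact ⟨p', fun _ _ => ⟨g1, g2⟩⟩
    · exact ⟨p0, fun b hb => absurd ⟨b, hb⟩ h⟩
  choose p hp using hp
  have hq : ∀ b : SB, ∃ q, ∀ c', D.Gd b c0 c' p0 → q ∈ su (D.Q b) ∧
      K.ga' c0 q = K.be' b p0 := by
    intro b
    by_cases h : ∃ c', D.Gd b c0 c' p0
    · obtain ⟨c', p', q, g1, g2, g3, g4, g5, g6, g7⟩ := h
      exact ⟨q, fun _ _ => ⟨g4, g6⟩⟩
    · by_cases h' : Nonempty Zb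
      · obtain ⟨q⟩ := h'
        exact ⟨q, fun c' hc' => absurd ⟨c', hc'⟩ h⟩
      · exfalso
        -- the point `p0` gives an element of some `Q b`
        have h2 : 0 < 𝔼 b, 𝔼 c', ind (D.Gd b c0 c' p0) := by linarith
        obtain ⟨b', -, hb'⟩ := exists_lt_of_lt_expect (s := (univ : Finset SB)) univ_nonempty h2
        obtain ⟨c', -, hc'⟩ := exists_lt_of_lt_expect (s := (univ : Finset SC)) univ_nonempty hb'
        obtain ⟨p', q, -⟩ := ind_pos hc'
        exact h' ⟨q⟩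
  choose q hq using hq
  have hkey : ∀ b c', D.Gd b c0 c' p0 → K.ga' c' (q b) = K.be' b (p c') := by
    intro b c' h
    obtain ⟨k1, k2⟩ := hp c' b h
    obtain ⟨k3, k4⟩ := hq b c' h
    obtain ⟨p', q', g1, g2, g3, g4, g5, g6, g7⟩ := h
    have e1 : q b = q' := g5 _ k3 k4
    have e2 : (p0, p c') = (p0, p') := g3 _ k2 rfl
    rw [e1, g7, (Prod.mk.inj e2).2]
  obtain ⟨u, hu⟩ := hE q p (h1.trans (expect_le_expect fun b _ => expect_le_expect fun c' _ =>
    ind_mono (hkey b c')))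
  refine ⟨u, ?_⟩
  have h2 : 1 - 12 * e ≤ 𝔼 c', ind (p c' ∈ su (D.P c')) := by
    refine h1.trans (ex_le fun b => expect_le_expect fun c' _ => ind_mono fun h => ?_)
    exact (hp c' b h).1
  have h3 : 𝔼 c, (ind (K.ga c u = p c) + ind (p c ∈ su (D.P c))) ≤
      𝔼 c, (1 + ind (K.ga c u ∈ su (D.P c))) := by
    refine expect_le_expect fun c _ => ?_
    by_cases h : K.ga c u = p c
    · rw [h]
      have := ind_le (p c = p c)
      linarith
    · have h4 : ind (K.ga c u = p c) = 0 := by unfold ind; rw [if_neg h]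
      have h5 := ind_le (p c ∈ su (D.P c))
      have h6 := ind_nn (K.ga c u ∈ su (D.P c))
      linarith
  rw [expect_add_distrib, expect_add_distrib, Fintype.expect_const] at h3
  linarith

/-- Subtraction of a point. -/
noncomputable def Dt.sub (D : Dt K) (u : Z) : Dt K where
  Q b := D.Q b + pt (K.be b u)
  P c := D.P c + pt (K.ga c u)
  R c c' := D.R c c' + pt (K.ga c u, K.ga c' u)
  h1 c c' := by rw [push_add, push_pt, D.h1]
  h2 c c' := by rw [push_add, push_pt, D.h2]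
  h3 b c c' := by
    rw [push_add, push_pt, D.h3, push_add, push_pt]
    unfold Sq.bb Sq.gg
    simp only
    rw [K.comm, K.comm]

theorem Dt.sum_eq (D : Dt K) : ((∑ c, (su (D.P c)).card : ℕ) : ℝ) = Fintype.card SC * D.A := by
  unfold Dt.A
  rw [Fintype.card_mul_expect]
  push_cast
  rfl

theorem glue2_aux (HL : Ls K e W') (h0 : 0 ≤ e) (he : 200 * e ≤ 1) (hE : Ex2 K e)
    (hW : 5 * W ≤ W') : ∀ (N : ℕ) (D : Dt K), D.Sz W' →
      ∑ c, (su (D.P c)).card ≤ N → D.A ≤ W → ∃ U : Z → ZMod 2,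
        (∀ c, H891.push (K.ga c) U = D.P c) ∧ (∀ b, H891.push (K.be b) U = D.Q b) ∧
        (∀ c c', H891.push (fun x => (K.ga c x, K.ga c' x)) U = D.R c c') ∧
        ((su U).card : ℝ) ≤ 4 * D.A := by
  have hS3 : (0 : ℝ) < Fintype.card SC := by exact_mod_cast Fintype.card_pos
  have hbase : ∀ D : Dt K, D.Sz W' → D.A ≤ 0 → ∃ U : Z → ZMod 2,
      (∀ c, H891.push (K.ga c) U = D.P c) ∧ (∀ b, H891.push (K.be b) U = D.Q b) ∧
      (∀ c c', H891.push (fun x => (K.ga c x, K.ga c' x)) U = D.R c c') ∧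
      ((su U).card : ℝ) ≤ 4 * D.A := by
    intro D hs hA
    have key : ∀ t : ℕ, (1 - 2 * e) * ((1 - 2 * e) * (t : ℝ)) ≤ D.A → t = 0 := by
      intro t ht
      by_contra hne
      have h1 : (1 : ℝ) ≤ t := by exact_mod_cast Nat.one_le_iff_ne_zero.2 hne
      have h2 : 0 < 1 - 2 * e := by linarith
      have h3 : 0 < (1 - 2 * e) * ((1 - 2 * e) * (t : ℝ)) := by positivity
      linarith
    have key' : ∀ t : ℕ, (1 - 2 * e) * (t : ℝ) ≤ D.A → t = 0 := fun t ht => by
      refine key t ((mul_le_mul_of_nonneg_left ht (by linarith)).trans ?_)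
      have hA0 : 0 ≤ D.A := Dt.A_nn
      nlinarith
    have hR : ∀ c c', D.R c c' = 0 := fun c c' =>
      su_empty.1 (card_eq_zero.1 (key _ (Dt.r_le HL hs (by linarith) c c')))
    have hP : ∀ c, D.P c = 0 := fun c => by
      rw [← D.h1 c c, hR, push_zero]
    have hQ : ∀ b, D.Q b = 0 := fun b =>
      su_empty.1 (card_eq_zero.1 (key' _ (Dt.q_le HL hs b)))
    refine ⟨0, fun c => ?_, fun b => ?_, fun c c' => ?_, ?_⟩
    · rw [push_zero, hP]
    · rw [push_zero, hQ]
    · rw [push_zero, hR]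
    · have h1 : 0 ≤ D.A := Dt.A_nn
      rw [su_zero]
      simp only [card_empty, Nat.cast_zero]
      linarith
  intro N
  induction N with
  | zero =>
    intro D hs hN hA
    refine hbase D hs ?_
    have h1 := D.sum_eq
    have h2 : ((∑ c, (su (D.P c)).card : ℕ) : ℝ) ≤ 0 := by exact_mod_cast hN
    rw [h1] at h2
    by_contra h3
    push Not at h3
    nlinarith [mul_pos hS3 h3]
  | succ N ih =>
    intro D hs hN hA
    rcases le_or_gt D.A 0 with hA0 | hA0
    · exact hbase D hs hA0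
    obtain ⟨u, hu⟩ := Dt.point HL hs h0 he hA0 hE
    obtain ⟨M, hM⟩ : ∃ M, M = D.A / (1 - 2 * e) ^ 2 := ⟨_, rfl⟩
    obtain ⟨bp, bq, br⟩ := Dt.bds HL hs he hM
    have hMW : M ≤ 2 * W := by
      rw [hM, div_le_iff₀ (by
        have : 0 < 1 - 2 * e := by linarith
        positivity)]
      have h3 : 1 / 2 ≤ (1 - 2 * e) ^ 2 := by nlinarith
      have h4 := mul_le_mul_of_nonneg_left h3 (Nat.cast_nonneg (α := ℝ) W)
      linarith
    have hW1 : 1 ≤ W := by
      have : (0 : ℝ) < W := lt_of_lt_of_le hA0 hA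
      exact_mod_cast this
    have hsz : ∀ t : ℕ, (t : ℝ) ≤ M → t + 1 ≤ W' := fun t ht => by
      have h1 : (t : ℝ) ≤ ((2 * W : ℕ) : ℝ) := by
        push_cast
        linarith
      have h2 : t ≤ 2 * W := by exact_mod_cast h1
      omega
    have hbq : ∀ b, ((su (D.Q b)).card : ℝ) ≤ M := fun b => by
      have h1 := bq b
      rw [hM, le_div_iff₀ (by
        have : 0 < 1 - 2 * e := by linarith
        positivity)]
      have h3 : (0 : ℝ) ≤ (su (D.Q b)).card := Nat.cast_nonneg _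
      nlinarith [mul_nonneg h3 h0]
    have hs' : (D.sub u).Sz W' :=
      ⟨fun z => (sz_pt' _ _).trans (hsz _ (bp z)), fun y => (sz_pt' _ _).trans (hsz _ (hbq y)),
        fun x x' => (sz_pt' _ _).trans (hsz _ (br x x'))⟩
    have hA' : (D.sub u).A ≤ D.A - 1 / 4 := by
      have h1 : (D.sub u).A ≤ 𝔼 c, (((su (D.P c)).card : ℝ) + 1 - 2 * ind (K.ga c u ∈ su (D.P c))) :=
        expect_le_expect fun z _ => sz_pt _ _
      rw [expect_sub_distrib, expect_add_distrib, Fintype.expect_const, ← mul_expect] at h1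
      have h2 : D.A = 𝔼 c, ((su (D.P c)).card : ℝ) := rfl
      rw [← h2] at h1
      linarith
    have hN' : ∑ c, (su ((D.sub u).P c)).card ≤ N := by
      have h1 := D.sum_eq
      have h2 := (D.sub u).sum_eq
      have h3 : ((∑ c, (su ((D.sub u).P c)).card : ℕ) : ℝ) < ((∑ c, (su (D.P c)).card : ℕ) : ℝ) := by
        rw [h1, h2]
        exact mul_lt_mul_of_pos_left (by linarith) hS3
      have h4 : ∑ c, (su ((D.sub u).P c)).card < ∑ c, (su (D.P c)).card := by exact_mod_cast h3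
      omega
    obtain ⟨U, g1, g2, g3, g4⟩ := ih (D.sub u) hs' hN' (by linarith)
    refine ⟨U + pt u, fun z => ?_, fun y => ?_, fun x x' => ?_, ?_⟩
    · rw [push_add, push_pt, g1]
      exact add_pt _ _
    · rw [push_add, push_pt, g2]
      exact add_pt _ _
    · rw [push_add, push_pt, g3]
      exact add_pt _ _
    · have h1 : ((su (U + pt u)).card : ℝ) ≤ (su U).card + 1 := by
        exact_mod_cast sz_pt' U u
      linarith

/-- **The gluing lemma in two coordinates.** -/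
theorem glue2' (HL : Ls K e W') (h0 : 0 ≤ e) (he : 200 * e ≤ 1) (hE : Ex2 K e)
    (hW : 5 * W ≤ W') (D : Dt K) (hs : D.Sz W) : ∃ U : Z → ZMod 2,
      (∀ c, H891.push (K.ga c) U = D.P c) ∧ (∀ b, H891.push (K.be b) U = D.Q b) ∧
      (∀ c c', H891.push (fun x => (K.ga c x, K.ga c' x)) U = D.R c c') ∧
      (1 - 2 * e) * (su U).card ≤ D.A ∧ D.A ≤ W := by
  have hA : D.A ≤ W := ex_le fun c => by exact_mod_cast hs.p c
  have hWW : W ≤ W' := by omega
  obtain ⟨U, g1, g2, g3, g4⟩ := glue2_aux HL h0 he hE hW _ D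
    ⟨fun c => (hs.p c).trans hWW, fun b => (hs.q b).trans hWW, fun c c' => (hs.r c c').trans hWW⟩
    le_rfl hA
  refine ⟨U, g1, g2, g3, ?_, hA⟩
  have h1 : (su U).card ≤ W' := by
    have h2 : ((su U).card : ℝ) ≤ ((4 * W : ℕ) : ℝ) := by
      push_cast
      linarith
    have h3 : (su U).card ≤ 4 * W := by exact_mod_cast h2
    omega
  refine (HL.c.sz h1).trans (expect_le_expect fun c _ => ?_)
  rw [g1]

end glue

end Vale.Agent.P318.H17
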