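import Vale.Agent.P318.H17.Glue2
import Vale.Agent.P318.H891.SpecGlue

/-!
# P318, gluing in two coordinates: the statement in terms of `Lossless`, `push`, `sz`
-/

set_option autoImplicit false

namespace Vale.Agent.P318.H17

open Finset H891
open scoped BigOperators

section bridge

open scoped Classical

theorem cond_univ {Sd X X' : Type} [Fintype Sd] [Nonempty Sd] [i : DecidableEq X']
    {T : Sd → X → X'} {W : ℕ} {e : ℝ} (h : H937.Lossless univ T W e) : Cond T e W := by
  have hi : i = fun a b => Classical.propDecidable (a = b) := Subsingleton.elim _ _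
  subst hi
  intro U hU
  have h1 := h U hU
  have hp : (0 : ℝ) < (univ : Finset Sd).card := by exact_mod_cast card_pos.2 univ_nonempty
  rw [expect_eq_sum_div_card, le_div_iff₀ hp]
  linarith

theorem ex_card {S : Type} [Fintype S] (P : S → Prop) [i : DecidablePred P] :
    𝔼 s, ind (P s) = ((univ.filter P).card : ℝ) / Fintype.card S := by
  have hi : i = fun a => Classical.propDecidable (P a) := Subsingleton.elim _ _
  subst hi
  rw [Fintype.expect_eq_sum_div_card, ← card_sep]
  rfl

theorem ex_card2 {S T : Type} [Fintype S] [Fintype T] (P : S × T → Prop) [i : DecidablePred P] :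
    𝔼 s, 𝔼 t, ind (P (s, t)) =
      ((univ.filter P).card : ℝ) / (Fintype.card S * Fintype.card T) := by
  rw [← expect_product', univ_product_univ]
  have h := ex_card P
  rw [Fintype.card_prod] at h
  push_cast at h
  exact h

end bridge

/-- **The gluing lemma in two coordinates.** -/
theorem glue2 {SB SC Z Zb Zc Zbc : Type} [Fintype SB] [Fintype SC] [Fintype Z] [Fintype Zb]
    [Fintype Zc] [Fintype Zbc] [Nonempty SB] [Nonempty SC] [DecidableEq Zb] [DecidableEq Zc]
    [DecidableEq Zbc]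
    (be : SB → Z → Zb) (be' : SB → Zc → Zbc) (ga : SC → Z → Zc) (ga' : SC → Zb → Zbc)
    (comm : ∀ b c x, be' b (ga c x) = ga' c (be b x)) (e : ℝ) (h0 : 0 ≤ e) (he : 200 * e ≤ 1)
    (W W' : ℕ) (hW : 5 * W ≤ W')
    (hbb : H937.Lossless univ (fun b (p : Zc × Zc) => (be' b p.1, be' b p.2)) W' e)
    (hb : H937.Lossless univ be' W' e) (hc' : H937.Lossless univ ga' W' e)
    (hc : H937.Lossless univ ga W' e)
    (hE : ∀ (q : SB → Zb) (p : SC → Zc), (1 - 12 * e) * (Fintype.card SB * Fintype.card SC) ≤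
      ((univ.filter fun bc : SB × SC => ga' bc.2 (q bc.1) = be' bc.1 (p bc.2)).card : ℝ) →
      ∃ u, 3 * Fintype.card SC ≤ 4 * (univ.filter fun c => ga c u = p c).card)
    (Q : SB → Zb → ZMod 2) (P : SC → Zc → ZMod 2) (PP : SC → SC → Zc × Zc → ZMod 2)
    (sQ : ∀ b, H937.sz (Q b) ≤ W) (sP : ∀ c, H937.sz (P c) ≤ W)
    (sPP : ∀ c c', H937.sz (PP c c') ≤ W)
    (h1 : ∀ c c', H937.push Prod.fst (PP c c') = P c)
    (h2 : ∀ c c', H937.push Prod.snd (PP c c') = P c')
    (h3 : ∀ b c c', H937.push (fun p : Zc × Zc => (be' b p.1, be' b p.2)) (PP c c') =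
      H937.push (fun x => (ga' c x, ga' c' x)) (Q b)) :
    ∃ U : Z → ZMod 2, (1 - 2 * e) * H937.sz U ≤ W ∧ (∀ c, H937.push (ga c) U = P c) ∧
      (∀ b, H937.push (be b) U = Q b) ∧
      ∀ c c', H937.push (fun x => (ga c x, ga c' x)) U = PP c c' := by
  simp only [push_eq] at h1 h2 h3 ⊢
  simp only [sz_eq] at sQ sP sPP ⊢
  obtain ⟨K, hK⟩ : ∃ K : Sq SB SC Z Zb Zc Zbc, K = ⟨be, be', ga, ga', comm⟩ := ⟨_, rfl⟩
  obtain ⟨U, g1, g2, g3, g4, g5⟩ := glue2' (K := K) (e := e) (W := W) (W' := W')
    (by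
      rw [hK]
      exact ⟨cond_univ hbb, cond_univ hb, cond_univ hc', cond_univ hc⟩) h0 he
    (by
      rw [hK]
      intro q p hqp
      simp only at hqp
      have h4 := ex_card2 fun bc : SB × SC => ga' bc.2 (q bc.1) = be' bc.1 (p bc.2)
      simp only at h4
      rw [h4, le_div_iff₀ (by
        have : (0 : ℝ) < Fintype.card SB := by exact_mod_cast Fintype.card_pos
        have : (0 : ℝ) < Fintype.card SC := by exact_mod_cast Fintype.card_pos
        positivity)] at hqp
      obtain ⟨u, hu⟩ := hE q p hqp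
      refine ⟨u, ?_⟩
      simp only
      rw [ex_card fun c => ga c u = p c, le_div_iff₀ (by
        exact_mod_cast Fintype.card_pos)]
      have h5 : (3 : ℝ) * Fintype.card SC ≤ 4 * (univ.filter fun c => ga c u = p c).card := by
        exact_mod_cast hu
      linarith) hW
    ⟨Q, P, PP, h1, h2, by
      rw [hK]
      exact h3⟩ ⟨sP, sQ, sPP⟩
  subst hK
  exact ⟨U, g4.trans g5, g1, g2, g3⟩

end Vale.Agent.P318.H17
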