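import Vale.Agent.P318.H17.Glue2Spec
import Vale.Agent.P318.H17.ExtT
import Vale.Agent.P318.H283.PDef

/-!
# P318, gluing for tensors

`ent E`: the linear map `E` applied to the entries. `idx G`: the linear map `G` applied to the
index. `glueT`: the gluing lemma for the views `ent (E b) x`, `idx (F c) x` of `x : F_2^n ⊗ F_2^n`.
-/

set_option autoImplicit false

namespace Vale.Agent.P318.H17

open Finset H283
open Vale.Agent.P318.H937 (push sz Lossless)
open scoped BigOperators

/-- Entrywise. -/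
def ent {J : Type} {m a : ℕ} (E : V2 m →ₗ[ZMod 2] V2 a) (x : J → V2 m) : J → V2 a :=
  fun j => E (x j)

/-- On the index. -/
def idx {n a k : ℕ} (G : V2 n →ₗ[ZMod 2] V2 a) (x : Fin n → V2 k) : Fin a → V2 k :=
  fun i l => G (fun j => x j l) i

theorem idx_eq {n a k : ℕ} (G : V2 n →ₗ[ZMod 2] V2 a) (x : Fin n → V2 k) :
    idx G x = idxT (J := Fin n) (I := Fin a) G x := by
  funext i l
  unfold idx
  rw [← idxT_eq (J := Fin n) (I := Fin a) G fun j => x j l]
  unfold idxT
  rw [Finset.sum_apply]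
  rfl

theorem ent_idx_comm {n m a a' : ℕ} (E : V2 m →ₗ[ZMod 2] V2 a') (G : V2 n →ₗ[ZMod 2] V2 a)
    (x : Fin n → V2 m) : ent E (idx G x) = idx G (ent E x) := by
  rw [idx_eq, idx_eq]
  funext i
  exact idxT_map (J := Fin n) (I := Fin a) G E x i

/-- `ent E` as a linear map. -/
def entL {J : Type} {m a : ℕ} (E : V2 m →ₗ[ZMod 2] V2 a) : (J → V2 m) →ₗ[ZMod 2] (J → V2 a) where
  toFun := ent E
  map_add' x y := by funext j; exact map_add E _ _
  map_smul' r x := by funext j; exact map_smul E _ _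

/-- `idx G` as a linear map. -/
def idxL {n a k : ℕ} (G : V2 n →ₗ[ZMod 2] V2 a) : (Fin n → V2 k) →ₗ[ZMod 2] (Fin a → V2 k) where
  toFun := idx G
  map_add' x y := by
    funext i l
    show G (fun j => x j l + y j l) i = _
    rw [show (fun j => x j l + y j l) = (fun j => x j l) + fun j => y j l from rfl, map_add]
    rfl
  map_smul' r x := by
    funext i l
    show G (fun j => r * x j l) i = _
    rw [show (fun j => r * x j l) = r • fun j => x j l from rfl, map_smul]
    rfl

section lossless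

variable {n m a q W0 : ℕ} {e : ℝ}

theorem ent_lossless {E : Fin q → (V2 m →ₗ[ZMod 2] V2 a)} (hE : VLoss W0 e E) (J : Type)
    [Fintype J] [DecidableEq J] :
    Lossless univ (fun (b : Fin q) (x : J → V2 m) => ent (E b) x) W0 e :=
  Lossless.comap (hE J Unit) (fun x => (x, ())) (fun _ _ h => congrArg Prod.fst h)
    (fun x => (x, ())) fun _ _ => rfl

theorem ent_lossless2 {E : Fin q → (V2 m →ₗ[ZMod 2] V2 a)} (hE : VLoss W0 e E) (J : Type)
    [Fintype J] [DecidableEq J] :
    Lossless univ (fun (b : Fin q) (p : (J → V2 m) × (J → V2 m)) =>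
      (ent (E b) p.1, ent (E b) p.2)) W0 e :=
  Lossless.comap (hE (J ⊕ J) Unit) (fun p => (Sum.elim p.1 p.2, ()))
    (fun p p' h => by
      have h1 := congrArg Prod.fst h
      exact Prod.ext (funext fun j => congrFun h1 (Sum.inl j))
        (funext fun j => congrFun h1 (Sum.inr j)))
    (fun p => (Sum.elim p.1 p.2, ())) fun b p => by
      refine Prod.ext (funext fun j => ?_) rfl
      rcases j with j | j <;> rfl

theorem idx_lossless {k : ℕ} {F : Fin q → (V2 n →ₗ[ZMod 2] V2 a)} (hF : VLoss W0 e F) (L : Type)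
    [Fintype L] [DecidableEq L] :
    Lossless univ (fun (c : Fin q) (p : (Fin n → V2 k) × L) => (idx (F c) p.1, p.2)) W0 e :=
  Lossless.comap (hF (Fin k) L) (fun p => (fun l j => p.1 j l, p.2))
    (fun _ _ h => Prod.ext
      (funext fun j => funext fun l => congrFun (congrFun (Prod.mk.inj h).1 l) j)
      (Prod.mk.inj h).2)
    (fun p => (fun l j => p.1 j l, p.2)) fun _ _ => rfl

theorem idx_lossless1 {k : ℕ} {F : Fin q → (V2 n →ₗ[ZMod 2] V2 a)} (hF : VLoss W0 e F) :
    Lossless univ (fun (c : Fin q) (x : Fin n → V2 k) => idx (F c) x) W0 e :=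
  Lossless.comap (idx_lossless (k := k) hF Unit) (fun x => (x, ()))
    (fun _ _ h => congrArg Prod.fst h) (fun x => (x, ())) fun _ _ => rfl

/-- A nonzero element is killed by few seeds. -/
theorem kill_le {E : Fin q → (V2 m →ₗ[ZMod 2] V2 a)} (hE : VLoss W0 e E) (hW : 2 ≤ W0)
    {x : V2 m} (hx : x ≠ 0) [DecidablePred fun b => E b x = 0] :
    ((univ.filter fun b => E b x = 0).card : ℝ) ≤ 2 * e * q := by
  classical
  have h1 := hE.single {0, x} (by rw [card_pair (Ne.symm hx)]; exact hW)
  rw [card_pair (Ne.symm hx), card_univ, Fintype.card_fin] at h1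
  have h2 : ∀ c : Fin q, ((({0, x} : Finset (V2 m)).image fun y => E c y).card : ℝ) =
      2 - if E c x = 0 then 1 else 0 := by
    intro c
    rw [image_insert, image_singleton, map_zero]
    by_cases h : E c x = 0
    · rw [if_pos h, h]
      norm_num
    · rw [if_neg h, card_pair (Ne.symm h)]
      norm_num
  rw [sum_congr rfl fun c _ => h2 c, sum_sub_distrib, sum_const, card_univ, Fintype.card_fin,
    nsmul_eq_mul] at h1
  have h3 : ((univ.filter fun b => E b x = 0).card : ℝ) = ∑ c, if E c x = 0 then (1 : ℝ) else 0 := by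
    rw [card_filter]
    push_cast
    refine sum_congr rfl fun c _ => ?_
    by_cases h : E c x = 0 <;> simp [h]
  rw [h3]
  push_cast at h1
  linarith

end lossless

/-- **Gluing for tensors.** -/
theorem glueT {a n q W0 : ℕ} {e : ℝ} (hq : 0 < q) (h0 : 0 ≤ e) (he : 200 * e ≤ 1)
    (hen : 200 * n * e ≤ 1) (E F : Fin q → (V2 n →ₗ[ZMod 2] V2 a)) (hE : VLoss W0 e E)
    (hF : VLoss W0 e F) (W : ℕ) (hW : 5 * W ≤ W0)
    (Q : Fin q → (Fin n → V2 a) → ZMod 2) (P : Fin q → (Fin a → V2 n) → ZMod 2)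
    (PP : Fin q → Fin q → (Fin a → V2 n) × (Fin a → V2 n) → ZMod 2)
    (sQ : ∀ b, sz (Q b) ≤ W) (sP : ∀ c, sz (P c) ≤ W) (sPP : ∀ c c', sz (PP c c') ≤ W)
    (h1 : ∀ c c', push Prod.fst (PP c c') = P c) (h2 : ∀ c c', push Prod.snd (PP c c') = P c')
    (h3 : ∀ b c c', push (fun p : (Fin a → V2 n) × (Fin a → V2 n) =>
      (ent (E b) p.1, ent (E b) p.2)) (PP c c') =
      push (fun x => (idx (F c) x, idx (F c') x)) (Q b)) :
    ∃ U : (Fin n → V2 n) → ZMod 2, (1 - 2 * e) * sz U ≤ W ∧
      (∀ c, push (idx (F c)) U = P c) ∧ (∀ b, push (ent (E b)) U = Q b) ∧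
      ∀ c c', push (fun x => (idx (F c) x, idx (F c') x)) U = PP c c' := by
  rcases Nat.eq_zero_or_pos W with hW0 | hW0
  · subst hW0
    have z1 : ∀ b, Q b = 0 := fun b => sz_eq_zero'.1 (Nat.le_zero.1 (sQ b))
    have z2 : ∀ c, P c = 0 := fun c => sz_eq_zero'.1 (Nat.le_zero.1 (sP c))
    have z3 : ∀ c c', PP c c' = 0 := fun c c' => sz_eq_zero'.1 (Nat.le_zero.1 (sPP c c'))
    refine ⟨0, ?_, fun c => ?_, fun b => ?_, fun c c' => ?_⟩
    · rw [sz_zero']
      simp
    · rw [push_zero', z2]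
    · rw [push_zero', z1]
    · rw [push_zero', z3]
  have h2W : 2 ≤ W0 := by omega
  have : Nonempty (Fin q) := ⟨⟨0, hq⟩⟩
  refine glue2 (fun b x => ent (E b) x) (fun b x => ent (E b) x) (fun c x => idx (F c) x)
    (fun c x => idx (F c) x) (fun b c x => ent_idx_comm _ _ _) e h0 he W W0 hW
    (ent_lossless2 hE (Fin a)) (ent_lossless hE (Fin a)) (idx_lossless1 hF) (idx_lossless1 hF)
    ?_ Q P PP sQ sP sPP h1 h2 h3
  intro qq p hqp
  obtain ⟨good, hgood⟩ : ∃ good : Fin q → Fin q → Prop, ∀ b c, good b c ↔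
    idx (F c) (qq b) = ent (E b) (p c) := ⟨fun b c => idx (F c) (qq b) = ent (E b) (p c),
      fun _ _ => Iff.rfl⟩
  classical
  have hfin : Module.finrank (ZMod 2) (V2 n) = n := Module.finrank_fin_fun _
  obtain ⟨B, hB, -, hC⟩ := pickB (SC := Fin q) E he (by rw [hfin]; exact hen)
    (fun x hx => by
      have h4 := kill_le hE h2W hx
      rw [Fintype.card_fin]
      convert h4) good (by
      have h4 := card_filter_add_card_filter_not (s := (univ : Finset (Fin q × Fin q)))
        (fun bc => good bc.1 bc.2)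
      rw [card_univ, Fintype.card_prod] at h4
      have h5 : ((univ.filter fun bc : Fin q × Fin q => good bc.1 bc.2).card : ℝ) +
          ((univ.filter fun bc : Fin q × Fin q => ¬ good bc.1 bc.2).card : ℝ) =
          Fintype.card (Fin q) * Fintype.card (Fin q) := by exact_mod_cast h4
      have h6 : (univ.filter fun bc : Fin q × Fin q => idx (F bc.2) (qq bc.1) =
          ent (E bc.1) (p bc.2)) = univ.filter fun bc : Fin q × Fin q => good bc.1 bc.2 := by
        ext bc
        simp only [mem_filter, mem_univ, true_and]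
        exact (hgood _ _).symm
      rw [h6] at hqp
      have h7 : ((univ.filter fun bc : Fin q × Fin q => ¬ good bc.1 bc.2).card : ℝ) ≤
          12 * e * (Fintype.card (Fin q) * Fintype.card (Fin q)) := by linarith
      convert h7)
  obtain ⟨C, hC, hCm⟩ : ∃ C : Finset (Fin q), 3 * Fintype.card (Fin q) ≤ 4 * C.card ∧
      ∀ c ∈ C, ∀ b ∈ B, good b c := ⟨_, hC, fun c hc => by
        simp only [mem_filter] at hc
        exact hc.2⟩
  obtain ⟨u, hu⟩ := liftT (SC := Fin q) (J := Fin n) (I := Fin a) E F he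
    (fun z hz => by
      have h4 := kill_le hF h2W hz
      rw [Fintype.card_fin]
      convert h4) B hB qq p C hC fun c hc b hb => by
        rw [← idx_eq]
        exact (hgood b c).1 (hCm c hc b hb)
  refine ⟨u, hC.trans (Nat.mul_le_mul_left _ (card_le_card fun c hc => ?_))⟩
  refine mem_filter.2 ⟨mem_univ _, ?_⟩
  rw [← hu c hc, idx_eq]

end Vale.Agent.P318.H17
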