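import Vale.Agent.P318.H17.GlueT
import Vale.Agent.P318.H283.Retract

/-!
# P318, the tensor step, weak form

Views of `y : F_2^n ⊗ F_2^n`: `ent (E b) y`, `idx (E c) y`, the pairs `idx (E c) y, idx (E c') y`,
and for a linear map `ρ` and `j < n` the views `vT` (entries compressed before `j + 1`, with the rest
of `ρ`) and `vI` (index compressed before `j`, the entry `j`, the rest of `ρ`).
-/

set_option autoImplicit false

namespace Vale.Agent.P318.H17

open Finset H283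
open Vale.Agent.P318.H937 (push sz Lossless)
open scoped BigOperators

/-! ### views into one space -/

/-- A family of views into one space. -/
theorem block {a D W0 h N : ℕ} {Y V Θ K : Type} [AddCommGroup Y] [Module (ZMod 2) Y] [Fintype Y]
    [AddCommGroup V] [Module (ZMod 2) V] [Fintype V] [DecidableEq V] [Fintype Θ] [Fintype K]
    (hV : CodeFor a D W0 h V N) (th : Θ → (Y →ₗ[ZMod 2] V))
    (R : Θ → K → (V →ₗ[ZMod 2] V2 a)) :
    ∃ (ι : Type) (_ : Fintype ι) (T : ι → (Y →ₗ[ZMod 2] V2 D)),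
      Fintype.card ι ≤ Fintype.card Θ * (N * (1 + Fintype.card K)) ∧
      ∀ W : ℕ, h * W ≤ W0 → ∀ B : Y → ZMod 2, (∀ i, sz (push (T i) B) ≤ W) →
        ∃ M : Θ → V → ZMod 2, (∀ θ, sz (M θ) ≤ 2 * W) ∧
          (∀ θ k, push (R θ k) (M θ) = push (fun y => R θ k (th θ y)) B) ∧
          ∀ U : Y → ZMod 2, (∀ θ, push (th θ) U = M θ) → ∀ i, push (T i) U = push (T i) B := by
  have h1 := fun θ => hV K (R θ)
  choose ι inst T hc hT using h1
  refine ⟨Σ θ, ι θ, inferInstance, fun s => T s.1 s.2 ∘ₗ th s.1, ?_, ?_⟩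
  · rw [Fintype.card_sigma]
    refine (sum_le_sum fun θ _ => hc θ).trans ?_
    rw [sum_const, card_univ, smul_eq_mul]
  · intro W hW B hB
    have h2 : ∀ θ, ∃ U, sz U ≤ 2 * W ∧ (∀ i, push (T θ i) U = push (T θ i) (push (th θ) B)) ∧
        ∀ k, push (R θ k) U = push (R θ k) (push (th θ) B) := fun θ => by
      refine hT θ W hW (push (th θ) B) fun i => ?_
      rw [push_push']
      exact hB ⟨θ, i⟩
    choose M hM0 hM1 hM2 using h2
    refine ⟨M, hM0, fun θ k => ?_, fun U hU s => ?_⟩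
    · rw [hM2, push_push']
    · change push (fun y => T s.1 s.2 (th s.1 y)) U = push (fun y => T s.1 s.2 (th s.1 y)) B
      rw [← push_push' (th s.1) (T s.1 s.2) U, ← push_push' (th s.1) (T s.1 s.2) B, hU s.1]
      exact hM1 s.1 s.2

/-- **The test principle.** -/
theorem test {a q W0 : ℕ} {e : ℝ} {Y X1 X2 Z : Type} [Fintype Y] [Fintype X1] [Fintype X2]
    [AddCommGroup Z] [Module (ZMod 2) Z] [Fintype Z] [DecidableEq Z]
    {F : Fin q → (Z →ₗ[ZMod 2] V2 a)} (hF : VLoss W0 e F) (hq : 1 ≤ q) (he : 2 * e < 1)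
    {B : Y → ZMod 2} {th1 : Y → X1} {th2 : Y → X2} {f1 : X1 → Z} {f2 : X2 → Z}
    (hf : ∀ y, f1 (th1 y) = f2 (th2 y)) {M1 : X1 → ZMod 2} {M2 : X2 → ZMod 2}
    (s : sz M1 + sz M2 ≤ W0)
    (h1 : ∀ v, push (fun x => F v (f1 x)) M1 = push (fun y => F v (f1 (th1 y))) B)
    (h2 : ∀ v, push (fun x => F v (f2 x)) M2 = push (fun y => F v (f2 (th2 y))) B) :
    push f1 M1 = push f2 M2 := by
  refine lossless_ext (S := univ) ⟨⟨0, hq⟩, mem_univ _⟩ he hF.single _ _
    ((Nat.add_le_add (sz_push_le' _ _) (sz_push_le' _ _)).trans s) fun v _ => ?_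
  rw [push_push', push_push', h1, h2]
  simp only [hf]

/-! ### the views -/

section views

variable {n a : ℕ} {V V' : Type} [AddCommGroup V] [Module (ZMod 2) V] [AddCommGroup V']
  [Module (ZMod 2) V']

/-- The entries before `j`. -/
def cut (j : ℕ) : (Fin n → V) →ₗ[ZMod 2] (Fin n → V) where
  toFun x i := if i.1 < j then x i else 0
  map_add' x y := by
    funext i
    by_cases h : i.1 < j <;> simp [h]
  map_smul' r x := by
    funext i
    by_cases h : i.1 < j <;> simp [h]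

theorem cut_apply (j : ℕ) (x : Fin n → V) (i : Fin n) :
    cut j x i = if i.1 < j then x i else 0 := rfl

theorem cut_n (x : Fin n → V) : cut n x = x := by
  funext i
  rw [cut_apply, if_pos i.2]

theorem cut_cut (j : ℕ) (x : Fin n → V) : cut j (cut (j + 1) x) = cut j x := by
  funext i
  rw [cut_apply, cut_apply, cut_apply]
  by_cases h : i.1 < j
  · rw [if_pos h, if_pos h, if_pos (by omega)]
  · rw [if_neg h, if_neg h]

theorem cut_self (j : Fin n) (x : Fin n → V) : cut (j.1 + 1) x j = x j := by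
  rw [cut_apply, if_pos (Nat.lt_succ_self _)]

theorem ent_cut {m a' : ℕ} (E : V2 m →ₗ[ZMod 2] V2 a') (j : ℕ) (x : Fin n → V2 m) :
    ent E (cut j x) = cut j (ent E x) := by
  funext i
  unfold ent
  rw [cut_apply, cut_apply]
  by_cases h : i.1 < j
  · rw [if_pos h, if_pos h]
  · rw [if_neg h, if_neg h, map_zero]

theorem cut_succ (j : Fin n) (x : Fin n → V) :
    x - cut j.1 x = (x - cut (j.1 + 1) x) + Pi.single j (x j) := by
  funext i
  rw [Pi.sub_apply, Pi.add_apply, Pi.sub_apply, cut_apply, cut_apply]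
  by_cases h : i = j
  · rw [h, if_neg (lt_irrefl _), if_pos (Nat.lt_succ_self _), Pi.single_eq_same]
    abel
  · have h' : i.1 ≠ j.1 := fun h' => h (Fin.ext h')
    rw [Pi.single_eq_of_ne h]
    by_cases h2 : i.1 < j.1
    · rw [if_pos h2, if_pos (by omega)]
      abel
    · rw [if_neg h2, if_neg (by omega)]
      abel

/-- The value of `ρ` on the entries from `j` on. -/
def rest (ρ : (Fin n → V) →ₗ[ZMod 2] V') (j : ℕ) : (Fin n → V) →ₗ[ZMod 2] V' :=
  ρ ∘ₗ (LinearMap.id - cut j)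

theorem rest_apply (ρ : (Fin n → V) →ₗ[ZMod 2] V') (j : ℕ) (x : Fin n → V) :
    rest ρ j x = ρ (x - cut j x) := rfl

theorem rest_succ (ρ : (Fin n → V) →ₗ[ZMod 2] V') (j : Fin n) (x : Fin n → V) :
    rest ρ j.1 x = rest ρ (j.1 + 1) x + ρ (Pi.single j (x j)) := by
  rw [rest_apply, rest_apply, ← map_add, cut_succ]

theorem rest_n (ρ : (Fin n → V) →ₗ[ZMod 2] V') (x : Fin n → V) : rest ρ n x = 0 := by
  rw [rest_apply, cut_n, sub_self, map_zero]

theorem rest_zero (ρ : (Fin n → V) →ₗ[ZMod 2] V') (x : Fin n → V) : rest ρ 0 x = ρ x := by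
  rw [rest_apply]
  congr 1
  funext i
  rw [Pi.sub_apply, cut_apply, if_neg (Nat.not_lt_zero _), sub_zero]

end views

section maps

variable {n a : ℕ}

/-- Entries compressed before `j + 1`, with the rest of `ρ`. -/
def vT (E : V2 n →ₗ[ZMod 2] V2 a) (ρ : (Fin n → V2 n) →ₗ[ZMod 2] V2 a) (j : Fin n) :
    (Fin n → V2 n) →ₗ[ZMod 2] ((Fin n → V2 a) × V2 a) :=
  LinearMap.prod (entL E ∘ₗ cut (j.1 + 1)) (rest ρ (j.1 + 1))

theorem vT_apply (E : V2 n →ₗ[ZMod 2] V2 a) (ρ : (Fin n → V2 n) →ₗ[ZMod 2] V2 a) (j : Fin n)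
    (y : Fin n → V2 n) : vT E ρ j y = (ent E (cut (j.1 + 1) y), rest ρ (j.1 + 1) y) := rfl

/-- Index compressed before `j`, the entry `j`, the rest of `ρ`. -/
def vI (G : V2 n →ₗ[ZMod 2] V2 a) (ρ : (Fin n → V2 n) →ₗ[ZMod 2] V2 a) (j : Fin n) :
    (Fin n → V2 n) →ₗ[ZMod 2] ((Fin a → V2 n) × (V2 n × V2 a)) :=
  LinearMap.prod (idxL G ∘ₗ cut j.1)
    (LinearMap.prod (LinearMap.proj j) (rest ρ (j.1 + 1)))

theorem vI_apply (G : V2 n →ₗ[ZMod 2] V2 a) (ρ : (Fin n → V2 n) →ₗ[ZMod 2] V2 a) (j : Fin n)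
    (y : Fin n → V2 n) : vI G ρ j y = (idx G (cut j.1 y), (y j, rest ρ (j.1 + 1) y)) := rfl

/-- The pairs of compressions of the index. -/
def vPP (G G' : V2 n →ₗ[ZMod 2] V2 a) {k : ℕ} :
    (Fin n → V2 k) →ₗ[ZMod 2] ((Fin a → V2 k) × (Fin a → V2 k)) :=
  LinearMap.prod (idxL G) (idxL G')

/-- From `vI` to the common quotient with `vT`. -/
def k1 (E : V2 n →ₗ[ZMod 2] V2 a) :
    ((Fin a → V2 n) × (V2 n × V2 a)) →ₗ[ZMod 2] ((Fin a → V2 a) × (V2 a × V2 a)) :=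
  LinearMap.prodMap (entL E) (LinearMap.prodMap E LinearMap.id)

/-- From `vT` to the common quotient with `vI`. -/
def k2 (G : V2 n →ₗ[ZMod 2] V2 a) (j : Fin n) :
    ((Fin n → V2 a) × V2 a) →ₗ[ZMod 2] ((Fin a → V2 a) × (V2 a × V2 a)) :=
  LinearMap.prod (idxL G ∘ₗ cut j.1 ∘ₗ LinearMap.fst _ _ _)
    (LinearMap.prodMap (LinearMap.proj j) LinearMap.id)

/-- From `vT` to the common quotient with the next `vI`. -/
def l1 (G : V2 n →ₗ[ZMod 2] V2 a) :
    ((Fin n → V2 a) × V2 a) →ₗ[ZMod 2] ((Fin a → V2 a) × V2 a) :=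
  LinearMap.prodMap (idxL G) LinearMap.id

/-- The label and the entry. -/
def lab (ρ : (Fin n → V2 n) →ₗ[ZMod 2] V2 a) (j : Fin n) :
    ((Fin a → V2 n) × (V2 n × V2 a)) →ₗ[ZMod 2] V2 a :=
  LinearMap.coprod (ρ ∘ₗ LinearMap.single (ZMod 2) (fun _ : Fin n => V2 n) j) LinearMap.id ∘ₗ
    LinearMap.snd _ _ _

/-- From `vI` to the common quotient with the previous `vT`. -/
def l2 (E : V2 n →ₗ[ZMod 2] V2 a) (ρ : (Fin n → V2 n) →ₗ[ZMod 2] V2 a) (j : Fin n) :
    ((Fin a → V2 n) × (V2 n × V2 a)) →ₗ[ZMod 2] ((Fin a → V2 a) × V2 a) :=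
  LinearMap.prod (entL E ∘ₗ LinearMap.fst _ _ _) (lab ρ j)

theorem lab_vI (G : V2 n →ₗ[ZMod 2] V2 a) (ρ : (Fin n → V2 n) →ₗ[ZMod 2] V2 a) (j : Fin n)
    (y : Fin n → V2 n) : lab ρ j (vI G ρ j y) = rest ρ j.1 y := by
  rw [rest_succ, add_comm]
  rfl

theorem k_comm (E G : V2 n →ₗ[ZMod 2] V2 a) (ρ : (Fin n → V2 n) →ₗ[ZMod 2] V2 a) (j : Fin n)
    (y : Fin n → V2 n) : k1 E (vI G ρ j y) = k2 G j (vT E ρ j y) := by
  rw [vI_apply, vT_apply]
  refine Prod.ext ?_ (Prod.ext ?_ rfl)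
  · show ent E (idx G (cut j.1 y)) = idx G (cut j.1 (ent E (cut (j.1 + 1) y)))
    rw [ent_idx_comm, ← ent_cut, cut_cut]
  · show E (y j) = E (cut (j.1 + 1) y j)
    rw [cut_self]

theorem l_comm (E G : V2 n →ₗ[ZMod 2] V2 a) (ρ : (Fin n → V2 n) →ₗ[ZMod 2] V2 a) (j j' : Fin n)
    (hj : j'.1 = j.1 + 1) (y : Fin n → V2 n) :
    l2 E ρ j' (vI G ρ j' y) = l1 G (vT E ρ j y) := by
  refine Prod.ext ?_ ?_
  · show ent E (idx G (cut j'.1 y)) = idx G (ent E (cut (j.1 + 1) y))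
    rw [ent_idx_comm, hj]
  · show lab ρ j' (vI G ρ j' y) = rest ρ (j.1 + 1) y
    rw [lab_vI, hj]

end maps

/-! ### the chain -/

section chain

variable {a n q W0 W : ℕ} {e : ℝ}

theorem k1_lossless {E : Fin q → (V2 n →ₗ[ZMod 2] V2 a)} (hE : VLoss W0 e E) :
    Lossless univ (fun (b : Fin q) (x : (Fin a → V2 n) × (V2 n × V2 a)) => k1 (E b) x) W0 e :=
  Lossless.comap (hE (Fin a ⊕ Unit) (V2 a))
    (fun x => (Sum.elim x.1 (fun _ => x.2.1), x.2.2))
    (fun x y h => by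
      have h1 := (Prod.mk.inj h).1
      have h2 := (Prod.mk.inj h).2
      refine Prod.ext (funext fun i => congrFun h1 (Sum.inl i)) (Prod.ext ?_ h2)
      exact congrFun h1 (Sum.inr ()))
    (fun x => (Sum.elim x.1 (fun _ => x.2.1), x.2.2)) fun b x => by
      refine Prod.ext (funext fun i => ?_) rfl
      rcases i with i | i <;> rfl

theorem l1_lossless {E : Fin q → (V2 n →ₗ[ZMod 2] V2 a)} (hE : VLoss W0 e E) :
    Lossless univ (fun (c : Fin q) (x : (Fin n → V2 a) × V2 a) => l1 (E c) x) W0 e :=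
  idx_lossless (k := a) hE (V2 a)

/-- The data of the chain. -/
structure Chain (a n q W0 W : ℕ) (e : ℝ) where
  /-- condensers -/
  E : Fin q → (V2 n →ₗ[ZMod 2] V2 a)
  FQ : Fin q → (((Fin n → V2 a) × V2 a) →ₗ[ZMod 2] V2 a)
  FK : Fin q → (((Fin a → V2 a) × (V2 a × V2 a)) →ₗ[ZMod 2] V2 a)
  FL : Fin q → (((Fin a → V2 a) × V2 a) →ₗ[ZMod 2] V2 a)
  hE : VLoss W0 e E
  hFQ : VLoss W0 e FQ
  hFK : VLoss W0 e FK
  hFL : VLoss W0 e FL
  ρ : (Fin n → V2 n) →ₗ[ZMod 2] V2 a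
  B : (Fin n → V2 n) → ZMod 2
  U : (Fin n → V2 n) → ZMod 2
  hU : sz U ≤ 4 * W
  MQ : Fin q → (Fin n → V2 a) → ZMod 2
  MT : Fin n → Fin q → ((Fin n → V2 a) × V2 a) → ZMod 2
  MI : Fin n → Fin q → ((Fin a → V2 n) × (V2 n × V2 a)) → ZMod 2
  sQ : ∀ b, sz (MQ b) ≤ 2 * W
  sT : ∀ j b, sz (MT j b) ≤ 2 * W
  sI : ∀ j c, sz (MI j c) ≤ 2 * W
  hUQ : ∀ b, push (entL (E b)) U = MQ b
  tQ : ∀ b v, push (fun x => FQ v (x, 0)) (MQ b) = push (fun y => FQ v (ent (E b) y, 0)) B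
  tT : ∀ j b v, push (FQ v) (MT j b) = push (fun y => FQ v (vT (E b) ρ j y)) B
  tTk : ∀ j b c v, push (fun x => FK v (k2 (E c) j x)) (MT j b) =
    push (fun y => FK v (k2 (E c) j (vT (E b) ρ j y))) B
  tTl : ∀ j b c v, push (fun x => FL v (l1 (E c) x)) (MT j b) =
    push (fun y => FL v (l1 (E c) (vT (E b) ρ j y))) B
  tIk : ∀ j c b v, push (fun x => FK v (k1 (E b) x)) (MI j c) =
    push (fun y => FK v (k1 (E b) (vI (E c) ρ j y))) B
  tIl : ∀ j c b v, push (fun x => FL v (l2 (E b) ρ j x)) (MI j c) =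
    push (fun y => FL v (l2 (E b) ρ j (vI (E c) ρ j y))) B

theorem Chain.start (K : Chain a n q W0 W e) (hq : 1 ≤ q) (he : 2 * e < 1) (hW : 6 * W ≤ W0)
    (j : Fin n) (hj : j.1 + 1 = n) (b : Fin q) : push (vT (K.E b) K.ρ j) K.U = K.MT j b := by
  have h1 : push (fun x : Fin n → V2 a => ((x, 0) : (Fin n → V2 a) × V2 a)) (K.MQ b) =
      push (fun x => x) (K.MT j b) := by
    refine test (B := K.B) (th1 := fun y => ent (K.E b) y) (th2 := fun y => vT (K.E b) K.ρ j y)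
      K.hFQ hq he (fun y => ?_) ?_ (fun v => K.tQ b v) (fun v => K.tT j b v)
    · rw [vT_apply, hj, cut_n, rest_n]
    · have := K.sQ b
      have := K.sT j b
      omega
  rw [push_id'] at h1
  rw [← h1, ← K.hUQ b, push_push']
  apply push_congr
  intro y
  rw [vT_apply, hj, cut_n, rest_n]
  rfl

theorem Chain.claimA (K : Chain a n q W0 W e) (hq : 1 ≤ q) (he : 2 * e < 1) (hW : 6 * W ≤ W0)
    (j : Fin n) (hT : ∀ b, push (vT (K.E b) K.ρ j) K.U = K.MT j b) (c : Fin q) :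
    push (vI (K.E c) K.ρ j) K.U = K.MI j c := by
  refine lossless_ext (S := univ) ⟨⟨0, hq⟩, mem_univ _⟩ he (k1_lossless K.hE) _ _ ?_ fun b _ => ?_
  · have h1 := sz_push_le' (vI (K.E c) K.ρ j) K.U
    have h2 := K.hU
    have h3 := K.sI j c
    omega
  · have h1 : push (fun x => k1 (K.E b) x) (K.MI j c) =
        push (fun x => k2 (K.E c) j x) (K.MT j b) := by
      refine test (B := K.B) (th1 := fun y => vI (K.E c) K.ρ j y)
        (th2 := fun y => vT (K.E b) K.ρ j y) K.hFK hq he (fun y => k_comm _ _ _ _ _) ?_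
        (fun v => K.tIk j c b v) (fun v => K.tTk j b c v)
      have := K.sI j c
      have := K.sT j b
      omega
    rw [h1, ← hT b, push_push', push_push']
    apply push_congr
    intro y
    exact k_comm _ _ _ _ _

theorem Chain.claimB (K : Chain a n q W0 W e) (hq : 1 ≤ q) (he : 2 * e < 1) (hW : 6 * W ≤ W0)
    (j j' : Fin n) (hj : j'.1 = j.1 + 1) (hI : ∀ c, push (vI (K.E c) K.ρ j') K.U = K.MI j' c)
    (b : Fin q) : push (vT (K.E b) K.ρ j) K.U = K.MT j b := by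
  refine lossless_ext (S := univ) ⟨⟨0, hq⟩, mem_univ _⟩ he (l1_lossless K.hE) _ _ ?_ fun c _ => ?_
  · have h1 := sz_push_le' (vT (K.E b) K.ρ j) K.U
    have h2 := K.hU
    have h3 := K.sT j b
    omega
  · have h1 : push (fun x => l2 (K.E b) K.ρ j' x) (K.MI j' c) =
        push (fun x => l1 (K.E c) x) (K.MT j b) := by
      refine test (B := K.B) (th1 := fun y => vI (K.E c) K.ρ j' y)
        (th2 := fun y => vT (K.E b) K.ρ j y) K.hFL hq he (fun y => l_comm _ _ _ _ _ hj _) ?_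
        (fun v => K.tIl j' c b v) (fun v => K.tTl j b c v)
      have := K.sI j' c
      have := K.sT j b
      omega
    rw [← h1, ← hI c, push_push', push_push']
    apply push_congr
    intro y
    exact (l_comm _ _ _ _ _ hj _).symm

/-- **All views of the chain are right.** -/
theorem Chain.right (K : Chain a n q W0 W e) (hq : 1 ≤ q) (he : 2 * e < 1) (hW : 6 * W ≤ W0) :
    (∀ j b, push (vT (K.E b) K.ρ j) K.U = K.MT j b) ∧
      ∀ j c, push (vI (K.E c) K.ρ j) K.U = K.MI j c := by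
  have h1 : ∀ m : ℕ, ∀ j : Fin n, j.1 + m + 1 = n →
      ∀ b, push (vT (K.E b) K.ρ j) K.U = K.MT j b := by
    intro m
    induction m with
    | zero => exact fun j hj => K.start hq he hW j hj
    | succ m ih =>
      intro j hj
      exact K.claimB hq he hW j ⟨j.1 + 1, by omega⟩ rfl
        (K.claimA hq he hW _ (ih _ (by simp only; omega)))
  have h2 : ∀ j b, push (vT (K.E b) K.ρ j) K.U = K.MT j b := fun j =>
    h1 (n - 1 - j.1) j (by have := j.2; omega)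
  exact ⟨h2, fun j => K.claimA hq he hW j (h2 j)⟩

end chain

end Vale.Agent.P318.H17
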