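import Vale.Agent.P318.H17.TStep

/-!
# P318, the tensor step
-/

set_option autoImplicit false

namespace Vale.Agent.P318.H17

open Finset H283
open Vale.Agent.P318.H937 (push sz Lossless)
open scoped BigOperators

/-! ### the count -/

theorem tcount (q n m N : ℕ) (hq : 1 ≤ q) (hn : 1 ≤ n) :
    q * (N * (1 + (q * (q * q) + q))) + (q * (N * (1 + q)) +
      (q * q * (N * (1 + (q + q + q * q))) +
      (m * (n * q) * (N * (1 + (q * q + (q * q + q)))) +
        m * (n * q) * (N * (1 + (q * q + (q * q + 1))))))) ≤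
    9 * n * q ^ 4 * N * (1 + m) := by
  have e1 : 1 ≤ q ^ 4 := Nat.one_le_pow _ _ hq
  have e2 : q ≤ q ^ 4 := Nat.le_self_pow (by norm_num) q
  have e3 : q ^ 2 ≤ q ^ 4 := Nat.pow_le_pow_right hq (by norm_num)
  have e4 : q ^ 3 ≤ q ^ 4 := Nat.pow_le_pow_right hq (by norm_num)
  calc q * (N * (1 + (q * (q * q) + q))) + (q * (N * (1 + q)) +
      (q * q * (N * (1 + (q + q + q * q))) +
      (m * (n * q) * (N * (1 + (q * q + (q * q + q)))) +
        m * (n * q) * (N * (1 + (q * q + (q * q + 1)))))))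
      = N * ((2 * q + 3 * q ^ 2 + 2 * q ^ 3 + 2 * q ^ 4)
          + m * n * (3 * q + q ^ 2 + 4 * q ^ 3)) := by ring
    _ ≤ N * (9 * q ^ 4 + m * n * (9 * q ^ 4)) := by
        apply Nat.mul_le_mul_left
        apply Nat.add_le_add
        · omega
        · apply Nat.mul_le_mul_left
          omega
    _ ≤ N * (n * (9 * q ^ 4) + m * n * (9 * q ^ 4)) := by
        apply Nat.mul_le_mul_left
        apply Nat.add_le_add_right
        exact Nat.le_mul_of_pos_left _ hn
    _ = 9 * n * q ^ 4 * N * (1 + m) := by ring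

section dims

theorem fr1 (k m : ℕ) : Module.finrank (ZMod 2) (Fin k → V2 m) = k * m := by
  rw [Module.finrank_pi_fintype]
  simp

end dims

/-! ### the step for `F_2^n ⊗ F_2^n` -/

section step

variable {a D W0 h q N n : ℕ} {e : ℝ}

theorem tensor_weak (ha : 1 ≤ a) (han : a ≤ n) (h0 : 0 ≤ e) (he : 200 * e ≤ 1)
    (hen : 200 * n * e ≤ 1) (hq : 1 ≤ q) (hh : 10 ≤ h)
    (hcond : HasCond a W0 (2 * a * n + a) q e) (hcode : CodeP a D W0 h (2 * a * n + a) N) :
    WCodeFor a D W0 h (Fin n → V2 n) (9 * n * q ^ 4 * N) := by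
  classical
  intro κ _ R
  have hn : 1 ≤ n := ha.trans han
  have an : a ≤ a * n := Nat.le_mul_of_pos_right _ hn
  have nan : n ≤ a * n := Nat.le_mul_of_pos_left _ ha
  have aan : a * a ≤ a * n := Nat.mul_le_mul_left _ han
  have n2 : 2 * a * n = 2 * (a * n) := by ring
  have nac : n * a = a * n := Nat.mul_comm _ _
  have a2 : a ≤ a * a := Nat.le_mul_of_pos_right _ ha
  obtain ⟨E, hE⟩ := hcond (V2 n) (by rw [finrank_V2]; omega)
  obtain ⟨FP, hFP⟩ := hcond (Fin a → V2 n) (by rw [fr1]; omega)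
  obtain ⟨FA, hFA⟩ := hcond ((Fin a → V2 a) × (Fin a → V2 a)) (by
    rw [Module.finrank_prod, fr1]; omega)
  obtain ⟨FQ, hFQ⟩ := hcond ((Fin n → V2 a) × V2 a) (by
    rw [Module.finrank_prod, fr1, finrank_V2]; omega)
  obtain ⟨FK, hFK⟩ := hcond ((Fin a → V2 a) × (V2 a × V2 a)) (by
    rw [Module.finrank_prod, Module.finrank_prod, fr1, finrank_V2]; omega)
  obtain ⟨FL, hFL⟩ := hcond ((Fin a → V2 a) × V2 a) (by
    rw [Module.finrank_prod, fr1, finrank_V2]; omega)
  obtain ⟨ι1, i1, T1, c1, b1⟩ := block (Θ := Fin q)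
    (K := (Fin q × (Fin q × Fin q)) ⊕ Fin q) (hcode (Fin n → V2 a) (by rw [fr1]; omega))
    (fun b => entL (E b))
    (fun _ => Sum.elim (fun x => FA x.2.2 ∘ₗ vPP (E x.1) (E x.2.1))
      (fun v => FQ v ∘ₗ LinearMap.inl (ZMod 2) _ _))
  obtain ⟨ι2, i2, T2, c2, b2⟩ := block (Θ := Fin q) (K := Fin q)
    (hcode (Fin a → V2 n) (by rw [fr1]; omega))
    (fun c => idxL (n := n) (k := n) (E c)) (fun _ => FP)
  obtain ⟨ι3, i3, T3, c3, b3⟩ := block (Θ := Fin q × Fin q)
    (K := (Fin q ⊕ Fin q) ⊕ (Fin q × Fin q)) (hcode ((Fin a → V2 n) × (Fin a → V2 n)) (by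
      rw [Module.finrank_prod, fr1]; omega))
    (fun c => vPP (k := n) (E c.1) (E c.2))
    (fun _ => Sum.elim (Sum.elim (fun v => FP v ∘ₗ LinearMap.fst (ZMod 2) _ _)
      (fun v => FP v ∘ₗ LinearMap.snd (ZMod 2) _ _))
      (fun x => FA x.2 ∘ₗ LinearMap.prodMap (entL (E x.1)) (entL (E x.1))))
  obtain ⟨ι4, i4, T4, c4, b4⟩ := block (Θ := κ × (Fin n × Fin q))
    (K := (Fin q × Fin q) ⊕ ((Fin q × Fin q) ⊕ Fin q)) (hcode ((Fin n → V2 a) × V2 a) (by
      rw [Module.finrank_prod, fr1, finrank_V2]; omega))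
    (fun x => vT (E x.2.2) (R x.1) x.2.1)
    (fun x => Sum.elim (fun y => FK y.2 ∘ₗ k2 (E y.1) x.2.1)
      (Sum.elim (fun y => FL y.2 ∘ₗ l1 (E y.1)) FQ))
  obtain ⟨ι5, i5, T5, c5, b5⟩ := block (Θ := κ × (Fin n × Fin q))
    (K := (Fin q × Fin q) ⊕ ((Fin q × Fin q) ⊕ Unit)) (hcode ((Fin a → V2 n) × (V2 n × V2 a)) (by
      rw [Module.finrank_prod, Module.finrank_prod, fr1, finrank_V2, finrank_V2]; omega))
    (fun x => vI (E x.2.2) (R x.1) x.2.1)
    (fun x => Sum.elim (fun y => FK y.2 ∘ₗ k1 (E y.1))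
      (Sum.elim (fun y => FL y.2 ∘ₗ l2 (E y.1) (R x.1) x.2.1) (fun _ => lab (R x.1) x.2.1)))
  refine ⟨ι1 ⊕ (ι2 ⊕ (ι3 ⊕ (ι4 ⊕ ι5))), inferInstance,
    Sum.elim T1 (Sum.elim T2 (Sum.elim T3 (Sum.elim T4 T5))), ?_, ?_⟩
  · simp only [Fintype.card_sum, Fintype.card_prod, Fintype.card_fin, Fintype.card_unit]
      at c1 c2 c3 c4 c5 ⊢
    refine le_trans ?_ (tcount q n (Fintype.card κ) N hq hn)
    omega
  · intro W hW B hB
    have h10 : 10 * W ≤ W0 := (Nat.mul_le_mul_right _ hh).trans hW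
    have he2 : 2 * e < 1 := by linarith
    obtain ⟨M1, s1, t1, r1⟩ := b1 W hW B fun i => hB (Sum.inl i)
    obtain ⟨M2, s2, t2, r2⟩ := b2 W hW B fun i => hB (Sum.inr (Sum.inl i))
    obtain ⟨M3, s3, t3, r3⟩ := b3 W hW B fun i => hB (Sum.inr (Sum.inr (Sum.inl i)))
    obtain ⟨M4, s4, t4, r4⟩ := b4 W hW B fun i => hB (Sum.inr (Sum.inr (Sum.inr (Sum.inl i))))
    obtain ⟨M5, s5, t5, r5⟩ := b5 W hW B fun i => hB (Sum.inr (Sum.inr (Sum.inr (Sum.inr i))))
    have g1 : ∀ c c', push Prod.fst (M3 (c, c')) = M2 c := by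
      intro c c'
      have h1 : push Prod.fst (M3 (c, c')) = push (fun x => x) (M2 c) := by
        refine test (B := B) (th1 := fun y => vPP (k := n) (E c) (E c') y)
          (th2 := fun y => idxL (n := n) (k := n) (E c) y) hFP hq he2 (fun y => rfl) ?_
          (fun v => t3 (c, c') (Sum.inl (Sum.inl v))) (fun v => t2 c v)
        have := s3 (c, c')
        have := s2 c
        omega
      rw [h1, push_id']
    have g2 : ∀ c c', push Prod.snd (M3 (c, c')) = M2 c' := by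
      intro c c'
      have h1 : push Prod.snd (M3 (c, c')) = push (fun x => x) (M2 c') := by
        refine test (B := B) (th1 := fun y => vPP (k := n) (E c) (E c') y)
          (th2 := fun y => idxL (n := n) (k := n) (E c') y) hFP hq he2 (fun y => rfl) ?_
          (fun v => t3 (c, c') (Sum.inl (Sum.inr v))) (fun v => t2 c' v)
        have := s3 (c, c')
        have := s2 c'
        omega
      rw [h1, push_id']
    have g3 : ∀ b c c', push (fun p : (Fin a → V2 n) × (Fin a → V2 n) =>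
        (ent (E b) p.1, ent (E b) p.2)) (M3 (c, c')) =
        push (fun x => (idx (E c) x, idx (E c') x)) (M1 b) := by
      intro b c c'
      refine test (B := B) (th1 := fun y => vPP (k := n) (E c) (E c') y)
        (th2 := fun y => entL (E b) y) hFA hq he2 (fun y => ?_) ?_
        (fun v => t3 (c, c') (Sum.inr (b, v))) (fun v => t1 b (Sum.inl (c, (c', v))))
      · exact Prod.ext (ent_idx_comm _ _ _) (ent_idx_comm _ _ _)
      · have := s3 (c, c')
        have := s1 b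
        omega
    obtain ⟨U, u0, u1, u2, u3⟩ := glueT hq h0 he hen E E hE hE (2 * W) (by omega) M1 M2
      (fun c c' => M3 (c, c')) s1 s2 (fun c c' => s3 (c, c')) g1 g2 g3
    have hU : sz U ≤ 4 * W := by
      have h1 : (sz U : ℝ) ≤ ((4 * W : ℕ) : ℝ) := by
        have h2 : (0 : ℝ) ≤ sz U := Nat.cast_nonneg _
        push_cast at u0 ⊢
        nlinarith [mul_nonneg h2 h0]
      exact_mod_cast h1
    have hch : ∀ k : κ, (∀ j b, push (vT (E b) (R k) j) U = M4 (k, (j, b))) ∧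
        ∀ j c, push (vI (E c) (R k) j) U = M5 (k, (j, c)) := fun k =>
      Chain.right (W := W) (W0 := W0) (e := e)
        { E := E, FQ := FQ, FK := FK, FL := FL, hE := hE, hFQ := hFQ, hFK := hFK, hFL := hFL
          ρ := R k, B := B, U := U, hU := hU, MQ := M1
          MT := fun j b => M4 (k, (j, b)), MI := fun j c => M5 (k, (j, c))
          sQ := s1, sT := fun j b => s4 (k, (j, b)), sI := fun j c => s5 (k, (j, c))
          hUQ := u2
          tQ := fun b v => t1 b (Sum.inr v)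
          tT := fun j b v => t4 (k, (j, b)) (Sum.inr (Sum.inr v))
          tTk := fun j b c v => t4 (k, (j, b)) (Sum.inl (c, v))
          tTl := fun j b c v => t4 (k, (j, b)) (Sum.inr (Sum.inl (c, v)))
          tIk := fun j c b v => t5 (k, (j, c)) (Sum.inl (b, v))
          tIl := fun j c b v => t5 (k, (j, c)) (Sum.inr (Sum.inl (b, v))) } hq he2 (by omega)
    refine ⟨U, by omega, ?_, fun k => ?_⟩
    · rintro (i | i | i | i | i)
      · exact r1 U u2 i
      · exact r2 U u1 i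
      · exact r3 U (fun c => u3 c.1 c.2) i
      · exact r4 U (fun x => (hch x.1).1 x.2.1 x.2.2) i
      · exact r5 U (fun x => (hch x.1).2 x.2.1 x.2.2) i
    · have h1 : ∀ y, lab (R k) ⟨0, hn⟩ (vI (E ⟨0, hq⟩) (R k) ⟨0, hn⟩ y) = R k y := fun y => by
        rw [lab_vI]
        exact rest_zero _ _
      have h2 : ∀ M : (Fin n → V2 n) → ZMod 2, push (R k) M =
          push (lab (R k) ⟨0, hn⟩) (push (vI (E ⟨0, hq⟩) (R k) ⟨0, hn⟩) M) := fun M => by
        rw [push_push']
        exact push_congr (fun y => (h1 y).symm) M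
      rw [h2 U, h2 B, (hch k).2, push_push']
      exact t5 (k, (⟨0, hn⟩, ⟨0, hq⟩)) (Sum.inr (Sum.inr ()))

end step

end Vale.Agent.P318.H17
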