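import Vale.Agent.P318.H17.TStep2
import Vale.Agent.P318.H505.Inst
import Vale.Agent.P318.H986.SpecCond

/-!
# P318, the tensor step in the form of the recursion
-/

set_option autoImplicit false

namespace Vale.Agent.P318.H17

open Finset H283
open Vale.Agent.P318.H937 (push sz Lossless)
open Vale.Agent.P318.H505 (TStep mono_codeP loss_le)

/-- An embedding into `F_2^n ⊗ F_2^n`. -/
theorem exists_emb (Y : Type) [AddCommGroup Y] [Module (ZMod 2) Y] [Fintype Y] (n : ℕ)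
    (hY : Module.finrank (ZMod 2) Y ≤ n ^ 2) :
    ∃ f : Y →ₗ[ZMod 2] (Fin n → V2 n), Function.Injective f := by
  obtain ⟨f, hf⟩ := exists_inj Y (n ^ 2) hY
  have h1 : Module.finrank (ZMod 2) (V2 (n ^ 2)) = Module.finrank (ZMod 2) (Fin n → V2 n) := by
    rw [finrank_V2, fr1, sq]
  exact ⟨(LinearEquiv.ofFinrankEq _ _ h1).toLinearMap ∘ₗ f,
    (LinearEquiv.ofFinrankEq _ _ h1).injective.comp hf⟩

theorem tcount2 (q n N : ℕ) (hq : 1 ≤ q) (hn : 1 ≤ n) :
    (9 * n * q ^ 4 * N * (1 + q) + q) * (1 + 2 * q) ≤ 64 * n * q ^ 6 * (N + 1) := by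
  have e1 : q ^ 2 ≤ q ^ 6 := Nat.pow_le_pow_right hq (by norm_num)
  calc (9 * n * q ^ 4 * N * (1 + q) + q) * (1 + 2 * q)
      ≤ (9 * n * q ^ 4 * N * (2 * q) + q) * (3 * q) := by
        apply Nat.mul_le_mul _ (by omega)
        apply Nat.add_le_add_right
        exact Nat.mul_le_mul_left _ (by omega)
    _ = 54 * n * q ^ 6 * N + 3 * q ^ 2 := by ring
    _ ≤ 64 * n * q ^ 6 * N + 64 * (n * q ^ 6) := by
        apply Nat.add_le_add
        · exact Nat.mul_le_mul_right _ (Nat.mul_le_mul_right _ (Nat.mul_le_mul_right _ (by omega)))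
        · have e2 : q ^ 6 ≤ n * q ^ 6 := Nat.le_mul_of_pos_left _ hn
          omega
    _ = 64 * n * q ^ 6 * (N + 1) := by ring

/-- **The tensor step.** -/
theorem tstep {a D w h J : ℕ} (hJ : 2 * w + 2 * J ≤ a) (haD : a ≤ D) (hh : 10 ≤ h) :
    TStep (CodeP a D (2 ^ w) h) a w J 6 12 := by
  intro n j N hn hsz hjJ hP
  have hx : 1 ≤ n * ((2 * a * n + a + 2) * ((2 * w + 1) * (w + 1))) :=
    Nat.mul_pos hn (Nat.mul_pos (by omega) (by positivity))
  have hj1 : 1 ≤ j := by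
    rcases Nat.eq_zero_or_pos j with h0 | h0
    · subst h0
      omega
    · exact h0
  have ha : 1 ≤ a := by omega
  rcases Nat.lt_or_ge n a with hna | hna
  · -- nothing to do
    refine mono_codeP a D (2 ^ w) h _ _ _ _ ?_ ?_ hP
    · calc n ^ 2 = n * n := sq n
        _ ≤ a * n := Nat.mul_le_mul_right _ hna.le
        _ ≤ 2 * a * n + a := by nlinarith
    · calc N ≤ 1 * (N + 1) := by omega
        _ ≤ 2 ^ 6 * n * (2 ^ j) ^ 12 * (N + 1) :=
          Nat.mul_le_mul_right _ (Nat.mul_pos (Nat.mul_pos (by norm_num) hn) (by positivity))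
  have hc := H986.hasCond j w (2 * a * n + a) a hj1 (by omega)
  have hc' := H986.hasCond j w (n ^ 2) a hj1 (by omega)
  have hq1 : 1 ≤ 2 ^ (2 * j) := Nat.one_le_two_pow
  have l1 := loss_le (d := 2 * a * n + a) (w := w) (j := j) (K := 2 ^ 8 * n) (by
    refine le_trans (le_of_eq ?_) hsz
    ring)
  have l2 := loss_le (d := n ^ 2) (w := w) (j := j) (K := 4) (by
    refine le_trans ?_ hsz
    have h1 : n ^ 2 + 2 ≤ n * (2 * a * n + a + 2) := by nlinarith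
    calc 4 * ((n ^ 2 + 2) * ((2 * w + 1) * (w + 1)))
        ≤ 2 ^ 8 * ((n * (2 * a * n + a + 2)) * ((2 * w + 1) * (w + 1))) :=
          Nat.mul_le_mul (by norm_num) (Nat.mul_le_mul_right _ h1)
      _ = _ := by ring)
  obtain ⟨e, he⟩ : ∃ e : ℝ, e = (2 * w + 1) * (((2 * a * n + a : ℕ) + 2) * (w + 1)) / 2 ^ j :=
    ⟨_, rfl⟩
  obtain ⟨e', he'⟩ : ∃ e' : ℝ, e' = (2 * w + 1) * (((n ^ 2 : ℕ) + 2) * (w + 1)) / 2 ^ j :=
    ⟨_, rfl⟩
  rw [← he] at l1 hc
  rw [← he'] at l2 hc'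
  have h0 : 0 ≤ e := by rw [he]; positivity
  push_cast at l1 l2
  have hn' : (1 : ℝ) ≤ n := by exact_mod_cast hn
  have l3 : 200 * (n : ℝ) * e ≤ 1 := by nlinarith [mul_nonneg (by linarith : (0 : ℝ) ≤ n) h0]
  have l4 : 200 * e ≤ 1 := by nlinarith [mul_nonneg (by linarith : (0 : ℝ) ≤ n - 1) h0]
  have h1 := tensor_weak ha hna h0 l4 l3 hq1 hh hc hP
  have hfr : Module.finrank (ZMod 2) (Fin n → V2 n) = n ^ 2 := by rw [fr1, sq]
  obtain ⟨G, hG⟩ := hc' (Fin n → V2 n) (le_of_eq hfr)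
  have he4 : e' ≤ 1 / 4 := by linarith
  have h2 := shrink G hG he4 hq1 haD h1
  intro Y _ _ _ _ hY
  obtain ⟨f, hf⟩ := exists_emb Y n hY
  have h3 := retract G hG he4 hq1 (by omega) f hf h2
  intro κ _ R
  obtain ⟨ι, i1, T, h4, h5⟩ := h3 κ R
  refine ⟨ι, i1, T, h4.trans (Nat.mul_le_mul_right _ ?_), h5⟩
  refine (tcount2 (2 ^ (2 * j)) n N hq1 hn).trans (le_of_eq ?_)
  rw [← pow_mul, ← pow_mul]
  have h6 : 2 * j * 6 = j * 12 := by ring
  rw [h6]
  norm_num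

end Vale.Agent.P318.H17
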